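import Crest.Agent.N325.Ag.RotD

/-!
# Row 325, part II (helper27): AUGMENT — the program
-/

set_option autoImplicit false

namespace Crest.Agent.N325.P2

section prog
variable {T : Type} (rot : S T → ℕ → R (S T)) (fin : S T → ℕ → R (S T))

/-- rotate along a path -/
def rots (l : List (ℕ × ℕ)) (s : S T) : R (S T) := foldL (fun p u => rot u p.2) l s

/-- **AUGMENT** -/
def aug (s : S T) (o : ℕ) (_q : List ℕ) (p1 p2 : ℕ × List (ℕ × ℕ)) : R (S T) :=
  rots rot p1.2 s >>= fun s1 => rots rot p2.2 s1 >>= fun s2 => fin s2 o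

end prog

end Crest.Agent.N325.P2
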