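import Crest.Agent.N325.Ag.FinN
import Crest.Agent.N325.P2.DropP

/-!
# Row 325, AUGMENT (helper53): the last step — the potential
-/

set_option autoImplicit false
open Finset

namespace Crest.Agent.N325.P2

open Crest.Agent.N325.Tw Crest.Agent.N325.Ip Crest.Agent.N325.Mt Crest.Agent.N325.Bf
  Crest.Agent.N325.Op Crest.Agent.N325.Ipm

/-- more flow on an arc whose upper slack stays above one -/
theorem bar_raise_price {P : Pm} {B : Bn} {e : ℕ} {A : Arc} {x c : ℤ} (hD : 1 ≤ P.D)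
    (hs0 : 1 ≤ P.s0) (hs : P.s0 ≤ P.D) (hA : B.arc e A) (h1 : 0 < x + A.o1) (hc : 0 ≤ c)
    (h3 : (P.D : ℤ) ≤ A.o3 - (x + c)) :
    bar P B A (x + c) ≤ bar P B A x + (A.p + A.c3) * (c / P.D) := by
  have d : (0 : ℝ) < P.D := by exact_mod_cast hD
  have t := bar_tangent (x := x + c) (c := -c) hD hs0 hA (by omega) (by omega) (by omega) (by omega)
  obtain ⟨a1, a2, -⟩ := slacks (x := x + c) hD hA (by omega) (by omega)
  have w1 := mul_nonneg (Nat.cast_nonneg (α := ℝ) A.c1) (wt_pos (s0 := σ0 P) a1.1).le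
  have w2 := mul_nonneg (Nat.cast_nonneg (α := ℝ) A.c2) (wt_pos (s0 := σ0 P) a2.1).le
  have h3' : (P.D : ℝ) ≤ (A.o3 : ℝ) - ((x + c : ℤ) : ℝ) := by exact_mod_cast h3
  have s0 : (P.s0 : ℝ) ≤ P.D := by exact_mod_cast hs
  have w3 : wt (σ0 P) (s3 P A (x + c)) ≤ 1 :=
    (wt_eq hD (s0.trans h3')).trans_le ((div_le_one (d.trans_le h3')).2 h3')
  have c0 : (0 : ℝ) ≤ c / P.D := div_nonneg (by exact_mod_cast hc) d.le
  have w3' := mul_le_mul_of_nonneg_right
    (mul_le_mul_of_nonneg_left w3 (Nat.cast_nonneg (α := ℝ) A.c3)) c0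
  have := mul_nonneg w1 c0; have := mul_nonneg w2 c0
  rw [add_neg_cancel_right, gr, Int.cast_neg, neg_div] at t
  linarith

namespace Cx
variable {T : Type} {X : Cx T} {s : St T} {N N' : Net} {d d' : Dt} {W : Finset ℕ} {v : ℕ}

theorem Ok.lM_fin (h : X.Ok) : lM X.P X.Bd = X.Lg - Real.log X.P.D := by
  have D0 : (0 : ℝ) < X.P.D := by exact_mod_cast h.D_pos
  have M0 : (0 : ℝ) < X.Bd.Mu := by
    have := h.n_le_M; rw [← h.Mu]; exact_mod_cast (by omega : 0 < X.C.M)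
  exact Real.log_div M0.ne' D0.ne'

/-- the two new arcs of an unlabelled vertex -/
theorem Ok.fin_GU (h : X.Ok) (c : Cmb X.G d) (hv : v < X.G.n) (k : d.st.get v = 0) :
    bar X.P X.Bd (aG X.C v) X.C.lam + bar X.P X.Bd (aU X.P.D X.C v) X.C.lam ≤
      1 + 4 * X.Lg + 2 * X.C.Z * lM X.P X.Bd := by
  have A3 := h.arc c (has3.2 ⟨hv, by omega⟩)
  have A4 := h.arc c (has4.2 ⟨hv, k⟩)
  rw [arcOf3] at A3; rw [arcOf4] at A4
  have := h.BD_le; have := h.lam_le'; have l0 := h.lam_pos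
  have g3 : Big X.P (aG X.C v) X.C.lam := h.big rfl le_rfl (by simp only [aG]; omega)
  have g4 : Big X.P (aU X.P.D X.C v) X.C.lam := h.big rfl le_rfl (by simp only [aU]; omega)
  have b3 := Lb.bar_le_all h.D_pos h.s0_pos A3 g3
  have D0 : (0 : ℝ) < X.P.D := by exact_mod_cast h.D_pos
  have l1 : (1 : ℝ) ≤ X.C.lam := by exact_mod_cast l0
  have l2 : (20000 * (X.C.Ph * X.C.Z * X.C.lam) : ℝ) ≤ X.P.D := by exact_mod_cast h.lam_le
  have l3 : (1 : ℝ) ≤ 2 * X.P.D - X.C.lam := by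
    have : X.C.lam + 1 ≤ 2 * X.P.D := by omega
    have : (X.C.lam + 1 : ℝ) ≤ 2 * X.P.D := by exact_mod_cast this
    linarith
  have p : (5 * X.C.Ph * X.C.Z : ℝ) * (X.C.lam / X.P.D) ≤ 1 := by
    rw [← mul_div_assoc, div_le_one D0]
    have : (0 : ℝ) ≤ X.C.Ph * X.C.Z * X.C.lam := by positivity
    linarith
  have q1 := Real.log_nonneg l1
  have q2 := Real.log_nonneg l3
  have q3 := mul_le_mul_of_nonneg_left (Real.log_le_log D0 (by linarith : (X.P.D : ℝ) ≤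
    X.C.lam + X.P.D)) (by positivity : (0 : ℝ) ≤ 2 * X.C.Z)
  rw [g4.bar_eq h.D_pos h.s0_pos A4, barL, h.lM_fin]
  simp only [aG, aU, Lg] at b3 ⊢
  push_cast at b3 ⊢
  rw [add_zero] at b3 ⊢
  linarith

/-- a sink pays its normalisation up to `Z B / D` -/
theorem Inv.fin_sink (i : X.Inv (s, d) N) (h : X.Ok) (k : isC X.G d v) :
    (X.C.Z * (d.cw.get v + 1) : ℝ) * (lM X.P X.Bd - Real.log (d.cw.get v + 1)) ≤
      bar X.P X.Bd (snkA X.C v (d.cw.get v + 1)) (N.X (5 * v + 2)) + X.C.Z * (X.C.B / X.P.D) := by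
  obtain ⟨m, a⟩ := i.arcs.sink k
  have p := Inv.pos h i.il.1 m
  have b := (Lb.le_bar h.D_pos h.s0_pos (h.ip.view i.il.1 _ m).2.1 p.1 p.2).1
  obtain ⟨x0, x1⟩ := i.lt_B h m
  rw [a] at b
  have D0 : (0 : ℝ) < X.P.D := by exact_mod_cast h.D_pos
  have x0' : (0 : ℝ) < N.X (5 * v + 2) := by exact_mod_cast x0
  have x1' : (N.X (5 * v + 2) : ℝ) ≤ X.C.B := by exact_mod_cast x1.le
  have w0 : (0 : ℝ) < d.cw.get v + 1 := by positivity
  have l := log_sub_le (a := N.X (5 * v + 2)) (b := X.P.D * (d.cw.get v + 1))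
    (t := X.C.B / (X.P.D * (d.cw.get v + 1))) x0' (by positivity) (by
      rw [add_mul, div_mul_cancel₀ _ (by positivity)]
      have : (0 : ℝ) ≤ X.P.D * (d.cw.get v + 1) := by positivity
      linarith)
  rw [Real.log_mul D0.ne' w0.ne'] at l
  have l' := mul_le_mul_of_nonneg_left l (by positivity : (0 : ℝ) ≤ X.C.Z * (d.cw.get v + 1))
  have e : (X.C.Z * (d.cw.get v + 1) : ℝ) * (X.C.B / (X.P.D * (d.cw.get v + 1))) =
      X.C.Z * (X.C.B / X.P.D) := by field_simp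
  rw [e] at l'
  rw [h.lM_fin]
  simp only [snkA, Lg] at b ⊢
  push_cast at b ⊢
  rw [add_zero] at b
  linarith

/-- **the potential after the last step of AUGMENT** -/
theorem fin_pot (h : X.Ok) (i : X.Inv (s, d) N) (r : FinR X.G d W d') (w : RootW X.G d W)
    (n : FinN X.P.D X.C X.G d W d' N N' X.C.lam) (hR : ex W d.mt.get = 2)
    (hC : #(W.filter (isC X.G d)) ≤ 2) (hq : d'.Q.length ≤ d.Q.length + 3 * #W)
    (hx : ex (range X.G.n) d'.mt.get + 2 = ex (range X.G.n) d.mt.get) :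
    pot X.P X.Bd N' + X.Ψ d' + 2 * X.Au ≤ pot X.P X.Bd N + X.Ψ d +
      X.C.Z * (13 * X.C.Ph * X.C.B / X.P.D + 12 * #W) := by
  have t := n.tots (bar X.P X.Bd) r w i.cmb i.arcs
  have c' := r.cmb w i.cmb
  have D0 : (0 : ℝ) < X.P.D := by exact_mod_cast h.D_pos
  have lt := fun e he => i.lt_B h (e := e) he
  have ex := n.exit r w h.wf i.cmb i.arcs lt
  rw [hR] at ex
  have f0 : ∀ u, 0 ≤ fnF X.G d W N u := fun u => sum_nonneg fun o ho =>
    (lt _ (i.arcs.of_has (mem_fnP.1 (mem_filter.1 ho).1).1).1).1.le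
  have fs : ∑ u ∈ fnH X.G d, fnF X.G d W N u ≤ 2 * X.C.B := by
    have := sum_fnF (N := N) (W := W) h.wf i.cmb (K := ℤ) fun _ => 1
    simp only [Int.cast_id, mul_one] at this
    rw [this]; exact_mod_cast ex
  have k1 : 0 ≤ ∑ o ∈ fnP X.G d W, bar X.P X.Bd (aP X.C X.G d o) (N.X (5 * o)) :=
    sum_nonneg fun o ho => by
      obtain ⟨m, a⟩ := i.arcs.of_has (mem_fnP.1 ho).1
      have := Inv.bar_nonneg h i.il.1 m
      rwa [a, arcOf0] at this
  have k2 : ∑ u ∈ fnH X.G d, (bar X.P X.Bd (aG X.C u) (N.X (5 * u + 3) + fnF X.G d W N u) -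
      bar X.P X.Bd (aG X.C u) (N.X (5 * u + 3))) ≤
      (5 * X.C.Ph * X.C.Z + 1) * (2 * X.C.B / X.P.D) := by
    refine (sum_le_sum (g := fun u => (5 * X.C.Ph * X.C.Z + 1 : ℝ) *
      ((fnF X.G d W N u : ℝ) / X.P.D)) fun u hu => ?_).trans ?_
    · obtain ⟨m, a⟩ := i.arcs.of_has (mem_fnH.1 hu)
      have A := (h.ip.view i.il.1 _ m).2.1
      rw [a, arcOf3] at A
      have := single_le_sum (f := fnF X.G d W N) (fun u _ => f0 u) hu
      have := lt _ m; have := h.BD_le; have := h.lam_le'; have := h.sm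
      have b := bar_raise_price (x := N.X (5 * u + 3)) h.D_pos h.s0_pos (by omega) A
        (by simp only [aG]; omega) (f0 u) (by simp only [aG]; omega)
      simp only [aG] at b ⊢
      push_cast at b
      linarith
    · rw [← mul_sum, ← sum_div, ← Int.cast_sum]
      have : ((∑ u ∈ fnH X.G d, fnF X.G d W N u : ℤ) : ℝ) ≤ 2 * X.C.B := by exact_mod_cast fs
      gcongr
  have k3 : ∑ v ∈ W, (bar X.P X.Bd (aG X.C v) X.C.lam + bar X.P X.Bd (aU X.P.D X.C v) X.C.lam -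
      old (bar X.P X.Bd) N (5 * v + 1) - old (bar X.P X.Bd) N (5 * v + 2)) +
      ∑ v ∈ W, (X.ψv d' v - X.ψv d v) ≤
      #W * (1 + 4 * X.Lg + 8 * X.C.Z) + 2 * (X.C.Z * (X.C.B / X.P.D)) := by
    rw [← sum_add_distrib]
    refine (sum_le_sum (g := fun v => (1 + 4 * X.Lg + 8 * X.C.Z : ℝ) +
      if isC X.G d v then (X.C.Z * (X.C.B / X.P.D) : ℝ) else 0) fun v hv => ?_).trans ?_
    · have a := h.fin_GU c' (w.lt v hv) (r.st_on hv)
      have b : 0 ≤ old (bar X.P X.Bd) N (5 * v + 1) := by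
        unfold old; split_ifs with q
        · exact Inv.bar_nonneg h i.il.1 q
        · exact le_rfl
      have s0 := r.st_on hv
      have s2 := w.st v hv
      have e : (0 : ℝ) ≤ ((X.C.K - Nat.log 2 (d.cw.get (d.cls.get v)) : ℕ) : ℝ) := by positivity
      rw [(w.old12 i.arcs hv _).2, ψv, ψv, if_neg fun q => (r.isC_iff.1 q).2 hv, s0, s2]
      norm_num
      split_ifs with q
      · linarith [i.fin_sink h q]
      · linarith
    · rw [sum_add_distrib, sum_const, nsmul_eq_mul, ← sum_filter, sum_const, nsmul_eq_mul]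
      have : (#(W.filter (isC X.G d)) : ℝ) ≤ 2 := by exact_mod_cast hC
      gcongr
  have k4 : ∑ v ∈ range X.G.n, X.ψv d' v =
      ∑ v ∈ range X.G.n, X.ψv d v + ∑ v ∈ W, (X.ψv d' v - X.ψv d v) := by
    rw [sum_subset (s₁ := W) (s₂ := range X.G.n) (fun v hv => mem_range.2 (w.lt v hv))
      fun v _ k => ?_, ← sum_add_distrib]
    · exact sum_congr rfl fun v _ => by ring
    · simp only [ψv, r.isC_iff, k, not_false_eq_true, and_true, r.st_off k, r.cls_off k, r.cw,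
        sub_self]
  have q : (X.C.Z : ℝ) * d'.Q.length ≤ X.C.Z * (d.Q.length + 3 * #W) :=
    mul_le_mul_of_nonneg_left (by exact_mod_cast hq) (Nat.cast_nonneg _)
  have x : (Mt.ex (range X.G.n) d.mt.get : ℝ) = Mt.ex (range X.G.n) d'.mt.get + 2 := by
    exact_mod_cast hx.symm
  have z := mul_le_mul_of_nonneg_left h.Lg_le (Nat.cast_nonneg (α := ℝ) #W)
  have z0 := mul_nonneg (Nat.cast_nonneg (α := ℝ) #W) h.Lg_nonneg
  have w0 : (0 : ℝ) ≤ #W := by positivity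
  have b0 : (0 : ℝ) ≤ X.C.B / X.P.D := by positivity
  have Z1 : (1 : ℝ) ≤ X.C.Z := by have := h.Z_pos; exact_mod_cast (by omega : 1 ≤ X.C.Z)
  have P1 : (2 : ℝ) ≤ X.C.Ph := by have := h.Ph; exact_mod_cast (by omega : 2 ≤ X.C.Ph)
  have y1 := mul_le_mul_of_nonneg_right Z1 b0
  have y2 := mul_le_mul_of_nonneg_right P1 (mul_nonneg (by linarith : (0 : ℝ) ≤ X.C.Z) b0)
  rw [Psi_eq, Psi_eq, k4, x, pot_eq, pot_eq, t, mul_div_assoc]
  rw [mul_div_assoc] at k2
  linarith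

end Cx

end Crest.Agent.N325.P2
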