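import Crest.Agent.N325.Ag.FinE
import Crest.Agent.N325.Ag.FinP

/-!
# Row 325, AUGMENT (helper94): the last step
-/

set_option autoImplicit false
open Finset

namespace Crest.Agent.N325.P2.Cx

open Crest.Agent.N325.Ip

/-- **FINAL** -/
theorem finSpec {T : Type} {X : Cx T} (h : X.Ok) : X.FinSpec (finE X.toEnv) := by
  rintro ⟨s, d⟩ N o i ro ho s1 s2 ne r1 r2
  refine (sp_finE h i ro ho s1 s2 ne r1 r2).mono ?_
  rintro ⟨s', d'⟩ t ⟨N', W, O, i', F, n, u⟩
  refine ⟨N', i', ?_⟩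
  have p := fin_pot h i F.rel F.root n F.ex2 F.cl2 F.q F.ex
  have l := F.len
  rw [List.toFinset_card_of_nodup F.nd] at p
  have p' := mul_le_mul_of_nonneg_left p (Nat.cast_nonneg (α := ℝ) X.κ)
  have l' : (W.length : ℝ) = d.cw.get (d.cls.get (X.G.tl.get o)) + d.cw.get (d.cls.get (X.G.hd o)) := by
    exact_mod_cast l
  have z : (0 : ℝ) ≤ X.κ * (X.C.Z * (W.length + 1)) := by positivity
  have z' : (0 : ℝ) ≤ X.κ * X.C.Z := by positivity
  simp only [Tot, wtC] at u p' ⊢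
  push_cast
  rw [show (d.cw.get (d.cls.get (X.G.tl.get o)) : ℝ) + 1 + (d.cw.get (d.cls.get (X.G.hd o)) + 1) =
    W.length + 2 by linarith]
  linarith

end Crest.Agent.N325.P2.Cx
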