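import Crest.Agent.N325.Ag.FinD
import Crest.Agent.N325.P2.Drop
import Crest.Agent.N325.Mt.Rebase

/-!
# Row 325, AUGMENT (helper94): the last step — the program on the data
-/

set_option autoImplicit false
open Finset

namespace Crest.Agent.N325.P2

open Crest.Agent.N325.Tw Crest.Agent.N325.Ip Crest.Agent.N325.Mt Crest.Agent.N325.Bf

variable {g : Gl} {G : Gf} {d : Dt} {o fu K c : ℕ}

/-- match the two root classes along `o`; new data, their vertices, the darts out of them -/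
def finDt (G : Gf) (fu : ℕ) (d : Dt) (o : ℕ) : R (Dt × List ℕ × List ℕ) := do
  let m ← augC G.av (fun x => d.mem.get (d.cls.get x)) fu [(G.tl.get o, G.hd o)] d.mt
  let W ← appL (d.mem.get (d.cls.get (G.tl.get o))) (d.mem.get (d.cls.get (G.hd o)))
  let O ← flatMapP G.adj.get W
  let st ← setAllP (fun _ => 0) W d.st
  let cls ← setAllP (fun v => v) W d.cls
  let pr ← setAllP (fun _ => false) O d.pr
  let Q ← rvApp O d.Q
  pure (⟨st, cls, d.mem, d.cw, d.bs, m, pr, Q⟩, W, O)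

/-- what the program on the data returns -/
structure FinO (G : Gf) (d : Dt) (w : ℕ) (d' : Dt) (W O : List ℕ) : Prop where
  nd : W.Nodup
  len : W.length = w
  root : RootW G d W.toFinset
  rel : FinR G d W.toFinset d'
  ex2 : ex W.toFinset d.mt.get = 2
  cl2 : #(W.toFinset.filter (isC G d)) ≤ 2
  q : d'.Q.length ≤ d.Q.length + 3 * #W.toFinset
  ex : ex (range G.n) d'.mt.get + 2 = ex (range G.n) d.mt.get
  ndO : O.Nodup
  mO : ∀ o, o ∈ O ↔ o < G.nd ∧ G.tl.get o ∈ W
  lO : O.length ≤ 3 * W.length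

theorem sCost_le' (w : G.WF) {S : Finset ℕ} (hK : #S < 2 ^ K) :
    sCost S G.av ≤ (2 * K + 45) * #S + 11 := by
  have a : ∑ v ∈ S, (G.av.get v).length ≤ #S * 3 := sum_le_card_nsmul _ _ _ fun v _ => w.av_deg v
  have b : Nat.log 2 #S ≤ K := by
    rcases Nat.eq_zero_or_pos #S with z | z
    · rw [z]; simp
    · exact (Nat.log_lt_of_lt_pow z.ne' hK).le
  have := Nat.mul_le_mul_left #S b
  unfold sCost; nlinarith

/-- a root class is closed under the matching, perfectly matched apart from the base -/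
theorem Cmb.rootC (h : Cmb G d) (i : isC G d c) (r : d.mt.get (d.bs.get c) = d.bs.get c) :
    (∀ v ∈ d.mem.get c, d.mt.get v ∈ d.mem.get c) ∧
      IsP ((d.mem.get c).toFinset.erase (d.bs.get c)) G.E d.mt.get := by
  have b := (h.bs c i).1
  refine ⟨fun v k => ?_, fun v hv => ?_, fun v hv => ?_⟩
  · by_cases q : v = d.bs.get c
    · rw [q, r]; exact b
    · exact (h.inside c i v k q).1
  all_goals
    obtain ⟨k1, k2⟩ := mem_erase.1 hv
    have k := h.inside c i v (List.mem_toFinset.1 k2) k1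
    have lt := ((h.mem c i v).1 (List.mem_toFinset.1 k2)).1
  · exact ⟨mem_erase.2 ⟨fun q => k1 (by rw [← h.mt_mt lt, q, r]), List.mem_toFinset.2 k.1⟩,
      h.mt_mt lt, h.isM.adj (mem_range.2 lt)⟩
  · exact k.2

theorem sp_finDt (w : G.WF) (h : Cmb G d) (ho : o < G.nd) (s1 : d.st.get (G.tl.get o) = 2)
    (s2 : d.st.get (G.hd o) = 2) (ne : d.cls.get (G.tl.get o) ≠ d.cls.get (G.hd o))
    (r1 : (bgOf G d).mu (d.cls.get (G.tl.get o)) = none)
    (r2 : (bgOf G d).mu (d.cls.get (G.hd o)) = none) (hX : G.n ≤ g.X) (hK : G.n < 2 ^ K)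
    (hf : (2 * K + 45) * G.n + 11 ≤ fu) :
    Sp g (finDt G fu d o) fun r t =>
      FinO G d (d.cw.get (d.cls.get (G.tl.get o)) + d.cw.get (d.cls.get (G.hd o))) r.1 r.2.1 r.2.2 ∧
      t ≤ (6 * K + 160) * (r.2.1.length + 1) := by
  obtain ⟨a, ha⟩ : ∃ a, a = G.tl.get o := ⟨_, rfl⟩
  obtain ⟨b, hb⟩ : ∃ b, b = G.hd o := ⟨_, rfl⟩
  have la : a < G.n := ha ▸ w.tl_lt o ho
  have lb : b < G.n := hb ▸ w.hd_lt ho
  have eab : G.E a b := ⟨o, ho, ha.symm, hb.symm⟩
  unfold finDt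
  simp only [← ha, ← hb] at s1 s2 ne r1 r2 ⊢
  have r1 : d.mt.get (d.bs.get (d.cls.get a)) = d.bs.get (d.cls.get a) := by
    by_contra k; simp [bgOf, k] at r1
  have r2 : d.mt.get (d.bs.get (d.cls.get b)) = d.bs.get (d.cls.get b) := by
    by_contra k; simp [bgOf, k] at r2
  have ia := h.out a la s1; have ib := h.out b lb s2
  have ab : a ≠ b := fun k => ne (k ▸ rfl)
  obtain ⟨W, hW⟩ : ∃ W, W = d.mem.get (d.cls.get a) ++ d.mem.get (d.cls.get b) := ⟨_, rfl⟩
  have mW : ∀ v, v ∈ W ↔ v < G.n ∧ d.st.get v = 2 ∧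
      (d.cls.get v = d.cls.get a ∨ d.cls.get v = d.cls.get b) := fun v => by
    rw [hW, List.mem_append, h.mem _ ia, h.mem _ ib]; tauto
  have dj : ∀ v ∈ d.mem.get (d.cls.get a), v ∉ d.mem.get (d.cls.get b) := fun v p q =>
    ne (((h.mem _ ia v).1 p).2.2.symm.trans ((h.mem _ ib v).1 q).2.2)
  have nd : W.Nodup := hW ▸ List.nodup_append.2 ⟨h.nodup _ ia, h.nodup _ ib,
    fun v p u q e => dj v p (e ▸ q)⟩
  have lt : ∀ v ∈ W, v < G.n := fun v k => ((mW v).1 k).1
  have sub : ∀ x, isC G d x → (d.mem.get x).toFinset ⊆ range G.n := fun x i v k =>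
    mem_range.2 ((h.mem x i v).1 (List.mem_toFinset.1 k)).1
  have sc : ∀ x, isC G d x → sCost (d.mem.get x).toFinset G.av ≤
      (2 * K + 45) * (d.mem.get x).length + 11 := fun x i => by
    rw [← List.toFinset_card_of_nodup (h.nodup x i)]
    exact sCost_le' w (((card_le_card (sub x i)).trans (card_range _).le).trans_lt hK)
  have hK1 : ∀ x, x < G.n → d.st.get x = 2 →
      d.mt.get (d.bs.get (d.cls.get x)) = d.bs.get (d.cls.get x) →
      (d.mem.get (d.cls.get x)).Nodup ∧ x ∈ d.mem.get (d.cls.get x) ∧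
      (d.mem.get (d.cls.get x)).toFinset ⊆ range G.n ∧ FC (d.mem.get (d.cls.get x)).toFinset G.E ∧
      ∃ y ∈ d.mem.get (d.cls.get x), IsP ((d.mem.get (d.cls.get x)).toFinset.erase y) G.E d.mt.get :=
    fun x k s r => have i := h.out x k s
      ⟨h.nodup _ i, (h.mem _ i x).2 ⟨k, s, rfl⟩, sub _ i, h.fc _ i, _, (h.bs _ i).1, (h.rootC i r).2⟩
  have rw' : RootW G d W.toFinset := by
    refine ⟨fun v k => lt v (List.mem_toFinset.1 k), fun v k => ((mW v).1 (List.mem_toFinset.1 k)).2.1,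
      fun v k s => ?_, fun v k => ?_⟩
    · have i := h.out v k s
      simp only [List.mem_toFinset, mW, k, s, i.1, i.2.1, i.2.2]
    · rcases ((mW v).1 (List.mem_toFinset.1 k)).2.2 with q | q <;> rw [q] <;> assumption
  have e2 : ex W.toFinset d.mt.get = 2 := by
    have ba := (h.mem _ ia _).1 (h.bs _ ia).1; have bb := (h.mem _ ib _).1 (h.bs _ ib).1
    rw [ex, show exs W.toFinset d.mt.get = {d.bs.get (d.cls.get a), d.bs.get (d.cls.get b)} from ?_,
      card_pair fun k => ne (by rw [← ba.2.2, k, bb.2.2])]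
    ext v
    rw [mem_exs, List.mem_toFinset, mW, mem_insert, mem_singleton]
    refine ⟨fun ⟨⟨p, _, q⟩, e⟩ => q.imp (fun q => by rw [← q, (h.root p e).2])
      fun q => by rw [← q, (h.root p e).2], ?_⟩
    rintro (rfl | rfl)
    exacts [⟨⟨ba.1, ba.2.1, .inl ba.2.2⟩, r1⟩, ⟨⟨bb.1, bb.2.1, .inr bb.2.2⟩, r2⟩]
  refine (sp_augC (V := range G.n) (U := W.toFinset) w.symm w.av (by rwa [card_range])
    ((sCost_le' w (by rwa [card_range])).trans (by rwa [card_range])) h.isM (by simp [vs, ab])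
    (by simpa using eab) ?_ ?_ (fun v => by simp [vs, hW]) fun v hv => ?_).bind
    fun m t0 ⟨m1, m2, m3, m4, m5, m6⟩ => (sp_appL _ _).bind fun W' t1 ⟨k1, u1⟩ => ?_
  · simp only [vs, List.flatMap_cons, List.flatMap_nil, List.append_nil, List.mem_cons,
      List.not_mem_nil, or_false]
    rintro x (rfl | rfl) y (rfl | rfl) q v p
    exacts [absurd rfl q, dj v p, fun z => dj v z p, absurd rfl q]
  · simp only [vs, List.flatMap_cons, List.flatMap_nil, List.append_nil, List.mem_cons,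
      List.not_mem_nil, or_false]
    rintro x (rfl | rfl)
    exacts [hK1 _ la s1 r1, hK1 _ lb s2 r2]
  · rw [List.mem_toFinset, hW, List.mem_append] at hv ⊢
    exact hv.imp ((h.rootC ia r1).1 v) ((h.rootC ib r2).1 v)
  obtain rfl : W' = W := k1.trans hW.symm
  refine (sp_flatMapP _ _).bind fun O t2 ⟨k2, u2⟩ => (sp_setAllP _ _ _).bind fun st t3 ⟨k3, u3⟩ =>
    (sp_setAllP _ _ _).bind fun cls t4 ⟨k4, u4⟩ => (sp_setAllP _ _ _).bind fun pr t5 ⟨k5, u5⟩ =>
    (sp_rvApp _ _).bind fun Q t6 ⟨k6, u6⟩ => sp_pure.2 ?_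
  have mO : ∀ p, p ∈ O ↔ p < G.nd ∧ G.tl.get p ∈ W' := fun p => k2 ▸ mem_drO w lt
  have lO : O.length ≤ 3 * W'.length := k2 ▸ length_drO w W'
  have cW : #W'.toFinset = W'.length := List.toFinset_card_of_nodup nd
  have lW : W'.length = (d.mem.get (d.cls.get a)).length + (d.mem.get (d.cls.get b)).length := by
    rw [hW, List.length_append]
  obtain ⟨ma, mb⟩ := m4 (a, b) List.mem_cons_self
  have pa := m5 a (by simp [vs]); have pb := m5 b (by simp [vs])
  have aW := (mW a).2 ⟨la, s1, .inl rfl⟩; have bW := (mW b).2 ⟨lb, s2, .inr rfl⟩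
  refine ⟨⟨nd, by rw [lW, h.cw _ ia, h.cw _ ib], rw', ⟨fun v => by simp [k3], fun v => by simp [k4],
    rfl, rfl, rfl, m1, m3, fun v hv => ?_, fun p hp => ?_, fun p => ?_⟩, e2, ?_, ?_, e2 ▸ m2, ?_, mO,
    lO⟩, ?_⟩
  · simp only [List.mem_toFinset] at hv ⊢
    by_cases q1 : v = a
    · rw [q1]; exact ⟨ma.symm ▸ bW, ma.symm ▸ ab.symm⟩
    by_cases q2 : v = b
    · rw [q2]; exact ⟨mb.symm ▸ aW, mb.symm ▸ ab⟩
    rw [hW, List.mem_append] at hv ⊢
    rcases hv with z | z
    · have z := mem_erase.2 ⟨q1, List.mem_toFinset.2 z⟩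
      exact ⟨.inl (List.mem_toFinset.1 (mem_of_mem_erase (pa.1.mem z))), pa.2 v z⟩
    · have z := mem_erase.2 ⟨q2, List.mem_toFinset.2 z⟩
      exact ⟨.inr (List.mem_toFinset.1 (mem_of_mem_erase (pb.1.mem z))), pb.2 v z⟩
  · simp only [k5, mO, hp, true_and, List.mem_toFinset]
    split_ifs with q <;> simp [q]
  · simp only [k6, List.mem_append, rvL, List.mem_reverse, List.mem_map, List.mem_toFinset]
    refine or_congr_left ⟨?_, fun k => ⟨rv p, (mO _).2 ⟨w.rv_lt k.1, k.2⟩, rv_rv p⟩⟩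
    rintro ⟨x, k, rfl⟩
    exact ⟨w.rv_lt ((mO x).1 k).1, by rw [Gf.hd_rv]; exact ((mO x).1 k).2⟩
  · refine (card_le_card (t := {d.cls.get a, d.cls.get b}) fun v k => ?_).trans card_le_two
    obtain ⟨p, q⟩ := mem_filter.1 k
    have := ((mW v).1 (List.mem_toFinset.1 p)).2.2
    rwa [q.2.2, ← mem_singleton (a := d.cls.get b), ← mem_insert] at this
  · simp only [k6, List.length_append, rvL, List.length_reverse, List.length_map]; omega
  · rw [k2]
    refine List.nodup_flatMap.2 ⟨fun v k => w.nodup v (lt v k), nd.pairwise_of_forall_ne ?_⟩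
    exact fun x hx y hy q p p1 p2 =>
      q (((w.mem x (lt x hx) p).1 p1).2.symm.trans ((w.mem y (lt y hy) p).1 p2).2)
  · have := sc _ ia; have := sc _ ib
    simp only [vs, List.flatMap_cons, List.flatMap_nil, List.append_nil, List.map_cons, List.map_nil,
      List.sum_cons, List.sum_nil] at m6
    rw [← k2] at u2
    simp only [lW] at *
    nlinarith

end Crest.Agent.N325.P2
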