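import Crest.Agent.N325.P2.Defs2
import Crest.Agent.N325.P2.Util

/-!
# Row 325, AUGMENT (helper94): the last step — two root classes are matched and unlabelled (data)
-/

set_option autoImplicit false
open Finset

namespace Crest.Agent.N325.P2

open Crest.Agent.N325.Tw Crest.Agent.N325.Ip Crest.Agent.N325.Mt Crest.Agent.N325.Bf

/-- FINAL: the dart `o` joins two root classes -/
def Cx.FinSpec {T : Type} (X : Cx T) (ev : S T → ℕ → R (S T)) : Prop :=
  ∀ s N o, X.Inv s N → X.RoomN s (40 * (X.G.n + 1)) → o < X.G.nd →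
    s.2.st.get (X.G.tl.get o) = 2 → s.2.st.get (X.G.hd o) = 2 →
    s.2.cls.get (X.G.tl.get o) ≠ s.2.cls.get (X.G.hd o) →
    (bgOf X.G s.2).mu (s.2.cls.get (X.G.tl.get o)) = none →
    (bgOf X.G s.2).mu (s.2.cls.get (X.G.hd o)) = none →
    Sp X.g (ev s o) fun s' t => ∃ N', X.Inv s' N' ∧
      t + X.Tot s' N' + X.κ * (2 * X.Au) ≤ X.Tot s N + X.κ * (X.C.Z *
        (13 * X.C.Ph * X.C.B / X.P.D + 15 * (wtC s.2 (s.2.cls.get (X.G.tl.get o)) +
          wtC s.2 (s.2.cls.get (X.G.hd o)))))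

variable {D : ℕ} {C : Cf} {G : Gf} {d d' : Dt} {W : Finset ℕ} {v : ℕ}

/-- `W` is a union of root classes -/
structure RootW (G : Gf) (d : Dt) (W : Finset ℕ) : Prop where
  lt : ∀ v ∈ W, v < G.n
  st : ∀ v ∈ W, d.st.get v = 2
  cl : ∀ v < G.n, d.st.get v = 2 → (v ∈ W ↔ d.cls.get v ∈ W)
  root : ∀ v ∈ W, d.mt.get (d.bs.get (d.cls.get v)) = d.bs.get (d.cls.get v)

/-- the data after the vertices of `W` were matched to each other and unlabelled -/
structure FinR (G : Gf) (d : Dt) (W : Finset ℕ) (d' : Dt) : Prop where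
  st : ∀ v, d'.st.get v = if v ∈ W then 0 else d.st.get v
  cls : ∀ v, d'.cls.get v = if v ∈ W then v else d.cls.get v
  mem : d'.mem = d.mem
  cw : d'.cw = d.cw
  bs : d'.bs = d.bs
  isM : IsM (range G.n) G.E d'.mt.get
  off : ∀ v, v ∉ W → d'.mt.get v = d.mt.get v
  on : ∀ v ∈ W, d'.mt.get v ∈ W ∧ d'.mt.get v ≠ v
  pr : ∀ o < G.nd, d'.pr.get o = true ↔ d.pr.get o = true ∧ G.tl.get o ∉ W
  q : ∀ o, o ∈ d'.Q ↔ (o < G.nd ∧ G.hd o ∈ W) ∨ o ∈ d.Q

theorem RootW.ne (w : RootW G d W) (k : d.st.get v ≠ 2) : v ∉ W := fun c => k (w.st v c)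

/-- the mate of an inner vertex is outside -/
theorem RootW.inn (w : RootW G d W) (c : Cmb G d) (k : v < G.n) (s : d.st.get v = 1) :
    d.mt.get v ∉ W := fun q => by
  have a := w.root _ q
  rw [(c.inn v k s).2, c.mt_mt k] at a
  have := w.st _ q
  rw [← a] at this; omega

namespace FinR
variable (r : FinR G d W d')
include r

theorem st_off (k : v ∉ W) : d'.st.get v = d.st.get v := by rw [r.st, if_neg k]
theorem st_on (k : v ∈ W) : d'.st.get v = 0 := by rw [r.st, if_pos k]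
theorem cls_off (k : v ∉ W) : d'.cls.get v = d.cls.get v := by rw [r.cls, if_neg k]
theorem st2 : d'.st.get v = 2 ↔ d.st.get v = 2 ∧ v ∉ W := by
  rw [r.st]; split_ifs with k <;> simp [k]
theorem st1 (w : RootW G d W) : d'.st.get v = 1 ↔ d.st.get v = 1 := by
  rw [r.st]; split_ifs with k
  · simp [w.st v k]
  · rfl
theorem isC_iff : isC G d' v ↔ isC G d v ∧ v ∉ W := by
  unfold isC
  by_cases k : v ∈ W
  · simp [r.st_on k, k]
  · simp [r.st_off k, r.cls_off k, k]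

theorem cmb (w : RootW G d W) (c : Cmb G d) : Cmb G d' := by
  have m : ∀ x, isC G d x → x ∉ W → ∀ v ∈ d.mem.get x, v ∉ W := fun x i k v hv q => by
    obtain ⟨a, b, e⟩ := (c.mem x i v).1 hv
    exact k (e ▸ (w.cl v a b).1 q)
  refine ⟨r.isM, fun v k => ?_, fun v k s => ?_, fun v k s => ?_, fun v k s => ?_, fun v k s => ?_,
    fun x i => ?_, fun x i v => ?_, fun x i => ?_, fun x i => ?_, fun x i v hv ne => ?_,
    fun x i => ?_, fun o k p => ?_⟩
  · rw [r.st]; split_ifs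
    · omega
    · exact c.st_le v k
  · by_cases q : v ∈ W
    · rw [r.cls, if_pos q]
    · rw [r.cls_off q]; exact c.cls_ne v k (r.st_off q ▸ s)
  · by_cases q : v ∈ W
    · exact ⟨r.st_on (r.on v q).1, (r.on v q).2⟩
    · rw [r.st_off q] at s
      obtain ⟨a, b⟩ := c.unl v k s
      rw [r.off v q, r.st_off (w.ne (by omega))]
      exact ⟨a, b⟩
  · rw [r.st1 w] at s
    have q := w.inn c k s
    rw [r.off v (w.ne (by omega)), r.st_off q, r.cls_off q, r.bs]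
    exact c.inn v k s
  · obtain ⟨a, b⟩ := r.st2.1 s
    rw [r.cls_off b, r.isC_iff]
    exact ⟨c.out v k a, fun q => b ((w.cl v k a).2 q)⟩
  · rw [r.mem]; exact c.nodup x (r.isC_iff.1 i).1
  · obtain ⟨a, b⟩ := r.isC_iff.1 i
    rw [r.mem, r.st2]
    refine ⟨fun hv => ?_, fun ⟨e, ⟨f, q⟩, h⟩ => (c.mem x a v).2 ⟨e, f, r.cls_off q ▸ h⟩⟩
    have q := m x a b v hv
    obtain ⟨e, f, h⟩ := (c.mem x a v).1 hv
    exact ⟨e, ⟨f, q⟩, (r.cls_off q).trans h⟩
  · rw [r.mem, r.cw]; exact c.cw x (r.isC_iff.1 i).1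
  · obtain ⟨a, b⟩ := r.isC_iff.1 i
    obtain ⟨e, f⟩ := c.bs x a
    rw [r.mem, r.bs, r.off _ (m x a b _ e), r.st1 w]
    exact ⟨e, f⟩
  · obtain ⟨a, b⟩ := r.isC_iff.1 i
    rw [r.mem] at hv ⊢
    rw [r.bs] at ne
    rw [r.off _ (m x a b _ hv)]
    exact c.inside x a v hv ne
  · rw [r.mem]; exact c.fc x (r.isC_iff.1 i).1
  · obtain ⟨a, b⟩ := (r.pr o k).1 p
    obtain ⟨e, f, h⟩ := c.pr o k a
    rw [r.st_off b, r.st_off (w.ne f), r.off _ b]
    exact ⟨e, f, h⟩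

theorem qOk (q : QOk G d) : QOk G d' := by
  refine ⟨fun o k => ((r.q o).1 k).elim And.left (q.lt o), fun o k => ?_⟩
  by_cases a : G.tl.get o ∈ W
  · exact .inr (.inl (.inl (by rw [r.st_on a]; omega)))
  by_cases b : G.hd o ∈ W
  · exact .inl ((r.q o).2 (.inl ⟨k, b⟩))
  rcases q.cmp o k with h | h | h
  · exact .inl ((r.q o).2 (.inr h))
  · refine .inr (.inl ?_)
    unfold Done at h ⊢
    rw [r.st_off a, r.st_off b, r.cls_off a, r.cls_off b, r.off _ a, r.pr o k]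
    tauto
  · exact .inr (.inr ⟨(r.st_off b).trans h.1, (r.q _).2 (.inr h.2)⟩)

theorem h0 : has G d' (5 * v) ↔ has G d (5 * v) ∧ G.tl.get v ∉ W := by
  rw [has0, has0, and_assoc]
  exact and_congr_right fun k => r.pr v k
theorem h1 (w : RootW G d W) : has G d' (5 * v + 1) ↔ has G d (5 * v + 1) ∧ v ∉ W := by
  rw [has1, has1, r.st1 w]
  by_cases k : v ∈ W
  · simp [k, (r.on v k).2, w.st v k]
  · simp [k, r.off v k]
theorem h2 : has G d' (5 * v + 2) ↔ has G d (5 * v + 2) ∧ v ∉ W := by rw [has2, has2, r.isC_iff]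
theorem h3 (w : RootW G d W) : has G d' (5 * v + 3) ↔ has G d (5 * v + 3) ∨ v ∈ W := by
  rw [has3, has3]
  by_cases k : v ∈ W
  · simp [k, r.st_on k, w.lt v k]
  · simp [k, r.st_off k]
theorem h4 (w : RootW G d W) : has G d' (5 * v + 4) ↔ has G d (5 * v + 4) ∨ v ∈ W := by
  rw [has4, has4]
  by_cases k : v ∈ W
  · simp [k, r.st_on k, w.lt v k]
  · simp [k, r.st_off k]

omit r in
/-- the class of the mate of a surviving entry is outside -/
theorem ent (w : RootW G d W) (c : Cmb G d) (k : has G d (5 * v + 1)) (q : v ∉ W) :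
    d.mt.get v ∉ W ∧ d.cls.get (d.mt.get v) ∉ W := by
  obtain ⟨a, b | b⟩ := has1.1 k
  · have := w.inn c a b
    exact ⟨this, fun z => this ((w.cl _ (c.mt_lt a) (c.inn v a b).1).2 z)⟩
  · rw [b]; exact ⟨q, fun z => q ((w.cl v a (c.root a b).1).2 z)⟩

/-- surviving arcs do not change -/
theorem arc (w : RootW G d W) (c : Cmb G d) {e : ℕ} (k : has G d' e) :
    arcOf D C G d' e = arcOf D C G d e := by
  obtain ⟨v, rfl | rfl | rfl | rfl | rfl⟩ := id_cases e
  · rw [arcOf0, arcOf0, aP, aP, r.cls_off (r.h0.1 k).2]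
  · obtain ⟨a, b⟩ := (r.h1 w).1 k
    rw [arcOf1, arcOf1, aE, aE, r.off v b, r.cls_off (ent w c a b).1]
  · rw [arcOf2, arcOf2, r.cw]
  · rw [arcOf3, arcOf3]
  · rw [arcOf4, arcOf4]

end FinR

end Crest.Agent.N325.P2
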