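import Crest.Agent.N325.Ag.FinD
import Crest.Agent.N325.P2.Dual
import Crest.Agent.N325.Lb.Bar

/-!
# Row 325, AUGMENT (helper94): the last step — the network
-/

set_option autoImplicit false
open Finset

namespace Crest.Agent.N325.P2

open Crest.Agent.N325.Tw Crest.Agent.N325.Ip Crest.Agent.N325.Mt Crest.Agent.N325.Bf
  Crest.Agent.N325.Op

variable {D : ℕ} {C : Cf} {G : Gf} {d d' : Dt} {W : Finset ℕ} {v : ℕ} {N N' : Net} {l : ℤ}

/-- the plain arcs out of `W` -/
def fnP (G : Gf) (d : Dt) (W : Finset ℕ) : Finset ℕ :=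
  (range G.nd).filter fun o => d.pr.get o = true ∧ G.tl.get o ∈ W
/-- the flow from `W` to `h` -/
def fnF (G : Gf) (d : Dt) (W : Finset ℕ) (N : Net) (h : ℕ) : ℤ :=
  ∑ o ∈ fnP G d W with G.hd o = h, N.X (5 * o)
/-- the heads -/
def fnH (G : Gf) (d : Dt) : Finset ℕ := (range G.n).filter fun v => d.st.get v ≠ 2

theorem mem_fnP : v ∈ fnP G d W ↔ has G d (5 * v) ∧ G.tl.get v ∈ W := by
  simp [fnP, has0, and_assoc]
theorem mem_fnH : v ∈ fnH G d ↔ has G d (5 * v + 3) := by simp [fnH, has3]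

theorem sum_fnF (w : G.WF) (c : Cmb G d) {K : Type} [CommRing K] (z : ℕ → K) :
    ∑ h ∈ fnH G d, (fnF G d W N h : K) * z h = ∑ o ∈ fnP G d W, (N.X (5 * o) : K) * z (G.hd o) := by
  rw [← sum_fiberwise_of_maps_to (s := fnP G d W) (t := fnH G d) (g := G.hd) fun o ho => by
    obtain ⟨a, b⟩ := has0.1 (mem_fnP.1 ho).1
    exact mem_filter.2 ⟨mem_range.2 (w.hd_lt a), (c.pr o a b).2.1⟩]
  refine sum_congr rfl fun h _ => ?_
  rw [fnF, Int.cast_sum, sum_mul]
  exact sum_congr rfl fun o ho => by rw [(mem_filter.1 ho).2]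

/-- the network after the last step -/
structure FinN (D : ℕ) (C : Cf) (G : Gf) (d : Dt) (W : Finset ℕ) (d' : Dt) (N N' : Net) (l : ℤ) :
    Prop where
  mem : ∀ e, e ∈ N'.E ↔ has G d' e
  arc : ∀ e ∈ N'.E, N'.arc e = arcOf D C G d' e
  kp : ∀ e ∈ N'.E, e % 5 ≠ 3 → e ∈ N.E → N'.X e = N.X e
  on : ∀ v ∈ W, N'.X (5 * v + 3) = l ∧ N'.X (5 * v + 4) = l
  gh : ∀ h ∈ fnH G d, N'.X (5 * h + 3) = N.X (5 * h + 3) + fnF G d W N h

theorem has_lt {e : ℕ} (h : has G d e) : e < 5 * (G.nd + G.n) := by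
  obtain ⟨v, rfl | rfl | rfl | rfl | rfl⟩ := id_cases e
  · have := (has0.1 h).1; omega
  · have := (has1.1 h).1; omega
  · have := (has2.1 h).1; omega
  · have := (has3.1 h).1; omega
  · have := (has4.1 h).1; omega

section tot
variable {M : Type} [AddCommGroup M] (f : Arc → ℤ → M)

theorem tot_ids {K : ℕ} (h : ∀ e ∈ N.E, e < 5 * K) : tot f N = ∑ v ∈ range K,
    (old f N (5 * v) + old f N (5 * v + 1) + old f N (5 * v + 2) + old f N (5 * v + 3) +
      old f N (5 * v + 4)) := by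
  have : tot f N = ∑ e ∈ range (5 * K), old f N e := by
    simp only [old, sum_ite_mem]
    rw [inter_eq_right.2 fun e he => mem_range.2 (h e he), tot]
  rw [this]; clear this h
  induction K with
  | zero => rfl
  | succ K ih => rw [sum_range_succ, ← ih, mul_add, mul_one]; simp only [sum_range_succ, add_assoc]

theorem sum_sub_range {K : ℕ} {S : Finset ℕ} (h : ∀ v ∈ S, v < K) (F : ℕ → M) :
    ∑ v ∈ S, F v = ∑ v ∈ range K, if v ∈ S then F v else 0 := by
  rw [sum_ite_mem, inter_eq_right.2 fun e he => mem_range.2 (h e he)]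

/-- **all sums over the arcs** -/
theorem FinN.tots (n : FinN D C G d W d' N N' l) (r : FinR G d W d') (w : RootW G d W)
    (c : Cmb G d) (a : Arcs D C G d N) :
    tot f N' = tot f N - ∑ o ∈ fnP G d W, f (aP C G d o) (N.X (5 * o)) +
      ∑ v ∈ W, (f (aG C v) l + f (aU D C v) l - old f N (5 * v + 1) - old f N (5 * v + 2)) +
      ∑ h ∈ fnH G d, (f (aG C h) (N.X (5 * h + 3) + fnF G d W N h) -
        f (aG C h) (N.X (5 * h + 3))) := by
  have same : ∀ e, e % 5 ≠ 3 → has G d' e → has G d e → old f N' e = old f N e := fun e k p q => by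
    have p' := (n.mem e).2 p; have q' := (a.mem e).2 q
    rw [old_mem f p', old_mem f q', n.arc e p', a.arc e q', r.arc w c p, n.kp e p' k q']
  have z' : ∀ e, ¬has G d' e → old f N' e = 0 := fun e p => old_notMem f fun q => p ((n.mem e).1 q)
  have z : ∀ e, ¬has G d e → old f N e = 0 := fun e p => old_notMem f fun q => p ((a.mem e).1 q)
  rw [tot_ids f fun e he => has_lt ((n.mem e).1 he), tot_ids f fun e he => has_lt ((a.mem e).1 he),
    sum_sub_range (K := G.nd + G.n) (S := fnP G d W)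
      fun v hv => by have := (has0.1 (mem_fnP.1 hv).1).1; omega,
    sum_sub_range (K := G.nd + G.n) (S := W) fun v hv => by have := w.lt v hv; omega,
    sum_sub_range (K := G.nd + G.n) (S := fnH G d)
      fun v hv => by have := (has3.1 (mem_fnH.1 hv)).1; omega,
    ← sum_sub_distrib, ← sum_add_distrib, ← sum_add_distrib]
  refine sum_congr rfl fun v _ => ?_
  have o0 : old f N' (5 * v) =
      old f N (5 * v) - if v ∈ fnP G d W then f (aP C G d v) (N.X (5 * v)) else 0 := by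
    by_cases p : has G d (5 * v)
    · by_cases q : G.tl.get v ∈ W
      · rw [if_pos (mem_fnP.2 ⟨p, q⟩), z' _ fun y => (r.h0.1 y).2 q, old_mem f (a.of_has p).1,
          (a.of_has p).2, arcOf0, sub_self]
      · rw [if_neg fun y => q (mem_fnP.1 y).2, same _ (by omega) (r.h0.2 ⟨p, q⟩) p, sub_zero]
    · rw [if_neg fun y => p (mem_fnP.1 y).1, z _ p, z' _ fun y => p (r.h0.1 y).1, sub_zero]
  by_cases k : v ∈ W
  · have p3 := (n.mem _).2 ((r.h3 w).2 (.inr k))
    have p4 := (n.mem _).2 ((r.h4 w).2 (.inr k))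
    have s := w.st v k
    rw [o0, z' _ fun y => ((r.h1 w).1 y).2 k, z' _ fun y => (r.h2.1 y).2 k, old_mem f p3,
      old_mem f p4, n.arc _ p3, n.arc _ p4, arcOf3, arcOf4, (n.on v k).1, (n.on v k).2,
      z (5 * v + 3) fun y => (has3.1 y).2 s, z (5 * v + 4) fun y => by have := (has4.1 y).2; omega,
      if_pos k, if_neg fun y => (has3.1 (mem_fnH.1 y)).2 s]
    abel
  · have g : ∀ e, e % 5 ≠ 3 → (has G d' e ↔ has G d e) → old f N' e = old f N e := fun e p q => by
      by_cases y : has G d e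
      · exact same e p (q.2 y) y
      · rw [z e y, z' e fun x => y (q.1 x)]
    rw [o0, g _ (by omega) ((r.h1 w).trans (and_iff_left k)),
      g _ (by omega) (r.h2.trans (and_iff_left k)), g (5 * v + 4) (by omega)
        ((r.h4 w).trans (or_iff_left k)), if_neg k]
    by_cases y : has G d (5 * v + 3)
    · have p3 := (n.mem _).2 ((r.h3 w).2 (.inl y))
      rw [if_pos (mem_fnH.2 y), old_mem f p3, n.arc _ p3, arcOf3, n.gh v (mem_fnH.2 y),
        old_mem f (a.of_has y).1, (a.of_has y).2, arcOf3]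
      abel
    · rw [if_neg fun x => y (mem_fnH.1 x), z _ y, z' _ fun x => y (((r.h3 w).1 x).resolve_right k)]
      abel
end tot

/-- the old arcs at a vertex of `W` -/
theorem RootW.old12 (w : RootW G d W) (a : Arcs D C G d N) (k : v ∈ W)
    {M : Type} [AddCommGroup M] (f : Arc → ℤ → M) :
    old f N (5 * v + 1) = (if d.mt.get v = v then
      f (capA 0 (d.cls.get v + 1) C.B) (N.X (5 * v + 1)) else 0) ∧
    old f N (5 * v + 2) = if isC G d v then
      f (snkA C v (d.cw.get v + 1)) (N.X (5 * v + 2)) else 0 := by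
  have s := w.st v k
  constructor <;> split_ifs with q
  · obtain ⟨x, y⟩ := a.entry (w.lt v k) (.inr q)
    rw [old_mem f x, y, aE, if_pos q, q]
  · exact old_notMem f fun y => (has1.1 ((a.mem _).1 y)).2.elim (by omega) q
  · rw [old_mem f (a.sink q).1, (a.sink q).2]
  · exact old_notMem f fun y => q (has2.1 ((a.mem _).1 y))

/-- the new flow is a circulation -/
theorem FinN.arcs (n : FinN D C G d W d' N N' l) (r : FinR G d W d') (w : RootW G d W)
    (g : G.WF) (c : Cmb G d) (a : Arcs D C G d N) : Arcs D C G d' N' := by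
  refine .of n.mem n.arc fun u hu => ?_
  obtain ⟨u, rfl⟩ := Nat.exists_eq_succ_of_ne_zero hu
  by_cases k : u ∈ W
  · have a0 : Arcs D C G d' ⟨N'.E, N'.arc, fun _ => 0⟩ := ⟨n.mem, n.arc, fun z => by simp⟩
    have s := r.st_on k
    have p3 := (n.mem _).2 ((r.h3 w).2 (.inr k))
    have p4 := (n.mem _).2 ((r.h4 w).2 (.inr k))
    rw [dv_eq, Op.inf, ouf, sum_eq_single_of_mem (5 * u + 3)
      (mem_filter.2 ⟨p3, by rw [n.arc _ p3, arcOf3]; rfl⟩) fun e he ne => ?_,
      sum_eq_single_of_mem (5 * u + 4) (mem_filter.2 ⟨p4, by rw [n.arc _ p4, arcOf4]; rfl⟩)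
      fun e he ne => ?_, (n.on u k).1, (n.on u k).2, sub_self]
    · obtain ⟨x, y⟩ := mem_filter.1 he
      rcases a0.out_head (r.cmb w c) g (by omega) x y with q | q
      · omega
      · exact absurd q.1 ne
    · obtain ⟨x, y⟩ := mem_filter.1 he
      rcases a0.in_head (r.cmb w c) (by omega) x y with q | ⟨o, -, q1, q2, q3⟩
      · exact absurd q ne
      · exact absurd (q3 ▸ w.st u k) (c.pr o q1 ((r.pr o q1).1 q2).1).2.1
  · have e := sum_fnF (N := N) (W := W) g c (K := ℤ) fun h => if h = u then 1 else 0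
    have cw : ∀ v ∈ W, d.cls.get v ≠ u := fun v hv q =>
      k (q ▸ (w.cl v (w.lt v hv) (w.st v hv)).1 hv)
    rw [dv, n.tots _ r w c a, ← dv, a.cons _ hu, sum_eq_zero (s := W) fun v hv => ?_,
      sum_congr rfl fun o ho => (?_ : _ = N.X (5 * o) * if G.hd o = u then 1 else 0),
      sum_congr (s₁ := fnH G d) rfl fun h _ => (?_ : _ = fnF G d W N h * if h = u then 1 else 0)]
    · simp only [Int.cast_id] at e; rw [e]; ring
    · rw [ct_add]; simp [ct, aG]
    · simp [ct, aP, capA, cw _ (mem_fnP.1 ho).2]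
    · have : v ≠ u := fun q => k (q ▸ hv)
      rw [(w.old12 a hv _).1, (w.old12 a hv _).2]
      simp [ct, aG, aU, capA, snkA, this, cw v hv]

/-- the flow out of `W` comes from the roots -/
theorem FinN.exit (n : FinN D C G d W d' N N' l) (r : FinR G d W d') (w : RootW G d W)
    (g : G.WF) (c : Cmb G d) (a : Arcs D C G d N) {b : ℤ} (hb : ∀ e ∈ N.E, 0 < N.X e ∧ N.X e < b) :
    ∑ o ∈ fnP G d W, N.X (5 * o) ≤ ex W d.mt.get * b := by
  obtain ⟨z, hz⟩ : ∃ z : ℕ → ℤ, ∀ u, z u = if u ≠ 0 ∧ u - 1 ∈ W then 1 else 0 := ⟨_, fun _ => rfl⟩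
  have z0 : z 0 = 0 := by simp [hz]
  have z1 : ∀ u ∈ W, z (u + 1) = 1 := fun u k => by simp [hz, k]
  have z2 : ∀ u, d.st.get u ≠ 2 → z (u + 1) = 0 := fun u k => by simp [hz, w.ne k]
  have cw : ∀ v ∈ W, d.cls.get v ∈ W := fun v hv => (w.cl v (w.lt v hv) (w.st v hv)).1 hv
  have t := n.tots (fun A x => x * (z A.b - z A.a)) r w c a
  rw [show tot (fun A x => x * (z A.b - z A.a)) N' = 0 from (n.arcs r w g c a).circ z,
    show tot (fun A x => x * (z A.b - z A.a)) N = 0 from a.circ z,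
    sum_eq_zero (s := fnH G d) fun h hh => by
      simp [aG, z0, z2 h (has3.1 (mem_fnH.1 hh)).2],
    sum_congr rfl fun o ho => (?_ : _ = -N.X (5 * o)), sum_neg_distrib] at t
  · rw [zero_sub, neg_neg, add_zero, eq_comm, add_eq_zero_iff_eq_neg, ← sum_neg_distrib] at t
    rw [t]
    refine (sum_le_sum (g := fun v => if d.mt.get v = v then b else 0) fun v hv => ?_).trans_eq ?_
    swap
    · rw [← sum_filter, sum_const, nsmul_eq_mul]; rfl
    · rw [(w.old12 a hv _).1, (w.old12 a hv _).2]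
      simp only [aG, aU, capA, snkA, z0, z1 v hv, z1 _ (cw v hv)]
      split_ifs with p q q
      · have := hb _ (a.entry (w.lt v hv) (.inr p)).1; have := hb _ (a.sink q).1; omega
      · have := hb _ (a.entry (w.lt v hv) (.inr p)).1; omega
      · have := hb _ (a.sink q).1; omega
      · omega
  · obtain ⟨p, q⟩ := mem_fnP.1 ho
    obtain ⟨p1, p2⟩ := has0.1 p
    simp [aP, capA, z1 _ (cw _ q), z2 _ (c.pr o p1 p2).2.1]

end Crest.Agent.N325.P2
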