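import Crest.Agent.N325.Ag.FinC
import Crest.Agent.N325.Ag.FinN
import Crest.Agent.N325.P2.DropE

/-!
# Row 325, AUGMENT (helper94): the last step — the program and its effect on the network
-/

set_option autoImplicit false
open Finset

namespace Crest.Agent.N325.P2

open Crest.Agent.N325.Tw Crest.Agent.N325.Ip Crest.Agent.N325.Mt Crest.Agent.N325.Bf
  Crest.Agent.N325.Op

/-- **FINAL** -/
def finE {T : Type} (E : Env T) (s : S T) (o : ℕ) : R (S T) :=
  finDt E.G E.C.fu s.2 o >>= fun r => drL E.G s.2 r.2.1 >>= fun L => rd E s.1 s.2 L >>= fun u =>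
    accL u.2 (fun p => 5 * E.G.hd p + 3) r.2.2 u.2 >>= fun x1 =>
    foldP (frs E.C.lam E.C.lam) r.2.1 x1 >>= fun x => app E (u.1, s.2) r.1 L x

namespace Cx
variable {T : Type} {X : Cx T}

theorem sp_finE (h : X.Ok) {s : Ip.St T} {d : Dt} {N : Net} {o : ℕ} (i : X.Inv (s, d) N)
    (ro : X.RoomN (s, d) (40 * (X.G.n + 1))) (ho : o < X.G.nd) (s1 : d.st.get (X.G.tl.get o) = 2)
    (s2 : d.st.get (X.G.hd o) = 2) (ne : d.cls.get (X.G.tl.get o) ≠ d.cls.get (X.G.hd o))
    (r1 : (bgOf X.G d).mu (d.cls.get (X.G.tl.get o)) = none)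
    (r2 : (bgOf X.G d).mu (d.cls.get (X.G.hd o)) = none) :
    Sp X.g (finE X.toEnv (s, d) o) fun r t => ∃ N' W O, X.Inv r N' ∧
      FinO X.G d (d.cw.get (d.cls.get (X.G.tl.get o)) + d.cw.get (d.cls.get (X.G.hd o))) r.2 W O ∧
      FinN X.P.D X.C X.G d W.toFinset r.2 N N' X.C.lam ∧
      t + X.Pt r.1 ≤ X.Pt s + X.κ * (X.C.Z * (W.length + 1)) := by
  have w := h.wf; have c : Cmb X.G d := i.cmb; have a : Arcs X.P.D X.C X.G d N := i.arcs
  have m1 := h.n_le_M; have m2 := h.M_le_X; have m3 := h.K; have m4 := h.M; have m5 := h.fu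
  have m6 := h.lam_le'; have m7 := h.BD_le
  have m8 : (2 * X.C.K + 45) * X.G.n + 11 ≤ X.C.fu :=
    le_trans (by nlinarith) ((Nat.mul_le_mul_right _
      (show 2 * X.C.K + 45 ≤ 1000 * (X.C.K + 5) ^ 2 by nlinarith)).trans m5)
  refine (sp_finDt (K := X.C.K) w c ho s1 s2 ne r1 r2 (by omega) (by omega) m8).bind ?_
  rintro ⟨d', W, O⟩ t0 ⟨F, u0⟩
  dsimp only at F u0 ⊢
  have r := F.rel; have rw' := F.root
  have lt : ∀ v ∈ W, v < X.G.n := fun v k => rw'.lt v (List.mem_toFinset.2 k)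
  have lW : W.length ≤ X.G.n := by
    rw [← List.toFinset_card_of_nodup F.nd]
    exact (card_le_card fun v k => mem_range.2 (rw'.lt v k)).trans (card_range _).le
  refine (sp_drL w c lt (by omega)).bind ?_
  rintro L t1 ⟨hL, u1⟩
  have mL := fun e => hL ▸ mem_drI (d := d) (e := e) w lt
  have lL : (L.length : ℝ) ≤ 16 * W.length := by exact_mod_cast hL ▸ length_drI w d W
  have lW' : (W.length : ℝ) ≤ X.G.n := by exact_mod_cast lW
  have au : (100 : ℝ) ≤ X.k.AU := by exact_mod_cast h.AU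
  have q1 := mul_le_mul_of_nonneg_left (lL.trans (mul_le_mul_of_nonneg_left lW' (by norm_num)))
    (show (0 : ℝ) ≤ X.k.AU by linarith)
  have q2 := mul_le_mul_of_nonneg_right au (Nat.cast_nonneg (α := ℝ) X.G.n)
  have n0 := Nat.cast_nonneg (α := ℝ) X.G.n
  unfold RoomN at ro
  push_cast at ro
  refine (sp_rd h i.il a.mem (by have := phi_le_Pt (X := X) (s := s); nlinarith)).bind ?_
  rintro ⟨s', x0⟩ t2 ⟨il, k2, u2, -⟩
  dsimp only at il k2 u2 ⊢
  have hb := fun e he => i.lt_B h (e := e) he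
  have b0 : ∀ e, (x0.get e).natAbs ≤ X.C.B := fun e => by
    rw [k2]; split_ifs with q
    · have := hb e q.2; omega
    · simp
  have lO := F.lO
  have ob : X.C.B + O.length * X.C.B + X.C.lam ≤ X.C.M := by
    have := Nat.mul_le_mul_right X.C.B (show O.length ≤ 3 * X.G.n by omega); nlinarith
  refine (sp_accL _ F.ndO b0 b0 (by omega)).bind fun x1 t3 ⟨k3, b3, u3⟩ =>
    (sp_foldP _ _ _).bind fun x t4 ⟨k4, u4⟩ => ?_
  have k4 : ∀ e, x.get e = if e % 5 ≠ 0 ∧ e / 5 ∈ W then (X.C.lam : ℤ) else x1.get e := fun e => by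
    rw [k4, foldl_frs, ite_self]
  have xa : ∀ v, ∑ p ∈ O.toFinset with 5 * X.G.hd p + 3 = 5 * v + 3, x0.get (5 * p) =
      fnF X.G d W.toFinset N v := fun v => by
    refine (sum_subset_zero_on_sdiff (fun p k => ?_) (fun p k => ?_) fun p k => ?_).symm
    · obtain ⟨k1, k2⟩ := mem_filter.1 k
      obtain ⟨k0, k1⟩ := mem_fnP.1 k1
      exact mem_filter.2 ⟨List.mem_toFinset.2 ((F.mO p).2 ⟨(has0.1 k0).1, List.mem_toFinset.1 k1⟩),
        by rw [k2]⟩
    · simp only [mem_sdiff, mem_filter, List.mem_toFinset, F.mO, mem_fnP] at k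
      rw [k2, if_neg fun z => k.2 ⟨⟨(a.mem _).1 z.2, k.1.1.2⟩, by omega⟩]
    · obtain ⟨k0, k1⟩ := mem_fnP.1 (mem_filter.1 k).1
      rw [k2, if_pos ⟨(mL _).2 (.inr ⟨p, (has0.1 k0).1, List.mem_toFinset.1 k1, .inl rfl⟩),
        (a.mem _).2 k0⟩]
  have y1 : ∀ e ∈ L, has X.G d' e → e % 5 ≠ 3 → e ∈ N.E → x.get e = N.X e := fun e hl p q z => by
    rw [k4, if_neg, k3, k2, if_pos ⟨hl, z⟩, sum_eq_zero fun p k => by
      have := (mem_filter.1 k).2; omega, add_zero]
    rintro ⟨j1, j2⟩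
    rw [← List.mem_toFinset] at j2
    obtain ⟨v, rfl | rfl | rfl | rfl | rfl⟩ := id_cases e
    · omega
    · exact ((r.h1 rw').1 p).2 (by rwa [show (5 * v + 1) / 5 = v by omega] at j2)
    · exact (r.h2.1 p).2 (by rwa [show (5 * v + 2) / 5 = v by omega] at j2)
    · omega
    · have := rw'.st _ j2
      rw [show (5 * v + 4) / 5 = v by omega, (has4.1 ((a.mem _).1 z)).2] at this; omega
  have y2 : ∀ v ∈ W.toFinset, ∀ j, j = 3 ∨ j = 4 → 5 * v + j ∈ L ∧ x.get (5 * v + j) = X.C.lam :=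
    fun v k j q => by
      have : (5 * v + j) % 5 ≠ 0 ∧ (5 * v + j) / 5 ∈ W :=
        ⟨by omega, by rw [show (5 * v + j) / 5 = v by omega]; exact List.mem_toFinset.1 k⟩
      exact ⟨(mL _).2 (.inl this), by rw [k4, if_pos this]⟩
  have y3 : ∀ v ∈ fnH X.G d, x.get (5 * v + 3) = x1.get (5 * v + 3) := fun v k => by
    rw [k4, if_neg fun z => rw'.ne (has3.1 (mem_fnH.1 k)).2 (by
      rw [show (5 * v + 3) / 5 = v by omega] at z; exact List.mem_toFinset.2 z.2)]
  have y4 : ∀ v ∈ fnH X.G d, 5 * v + 3 ∈ L →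
      x1.get (5 * v + 3) = N.X (5 * v + 3) + fnF X.G d W.toFinset N v := fun v k q => by
    rw [k3, xa, k2, if_pos ⟨q, (a.mem _).2 (mem_fnH.1 k)⟩]
  refine (sp_app0 (d2 := d') (x := x) (L := L) h il a (r.cmb rw' c)
    (by have := phi_le_Pt (X := X) (s := s'); have := Nat.cast_nonneg (α := ℝ) t2; nlinarith)
    (fun e he => ?_) fun e he p => ?_).mono ?_
  · have : has X.G d' e ↔ has X.G d e := by
      have z : ∀ v j, 0 < j → j < 5 → e = 5 * v + j → v ∉ W.toFinset := fun v j j1 j2 q k =>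
        he ((mL _).2 (.inl ⟨by omega, by
          rw [show e / 5 = v by omega]; exact List.mem_toFinset.1 k⟩))
      obtain ⟨v, q | q | q | q | q⟩ := id_cases e
      · rw [q, r.h0]
        exact and_iff_left_of_imp fun k j =>
          he ((mL _).2 (.inr ⟨v, (has0.1 k).1, List.mem_toFinset.1 j, .inl q⟩))
      · rw [q, r.h1 rw', and_iff_left (z v 1 (by omega) (by omega) q)]
      · rw [q, r.h2, and_iff_left (z v 2 (by omega) (by omega) q)]
      · rw [q, r.h3 rw', or_iff_left (z v 3 (by omega) (by omega) q)]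
      · rw [q, r.h4 rw', or_iff_left (z v 4 (by omega) (by omega) q)]
    exact ⟨this, fun k => r.arc rw' c (this.2 k)⟩
  · have old : e % 5 ≠ 3 → has X.G d e → Dom X.Bd (arcOf X.P.D X.C X.G d' e) (x.get e) :=
      fun q k => by
        rw [y1 e he p q (a.of_has k).1, r.arc rw' c p, ← (a.of_has k).2]
        exact (h.ip.view i.il.1 e (a.of_has k).1).2.2.1
    obtain ⟨v, rfl | rfl | rfl | rfl | rfl⟩ := id_cases e
    · exact old (by omega) (r.h0.1 p).1
    · exact old (by omega) ((r.h1 rw').1 p).1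
    · exact old (by omega) (r.h2.1 p).1
    · rw [arcOf3]
      refine ((r.h3 rw').1 p).elim (fun k => ?_) fun k => ?_
      · have v0 := (h.ip.view i.il.1 _ (a.of_has k).1).2.2.1.1
        have f0 : 0 ≤ fnF X.G d W.toFinset N v := sum_nonneg fun p k =>
          (hb _ ((a.mem _).2 (mem_fnP.1 (mem_filter.1 k).1).1)).1.le
        have := y4 v (mem_fnH.2 k) he; have := b3 (5 * v + 3); have := h.sm
        rw [(a.of_has k).2, arcOf3] at v0
        rw [y3 v (mem_fnH.2 k)]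
        simp only [Dom, aG] at v0 ⊢; omega
      · rw [(y2 v k 3 (.inl rfl)).2]
        exact h.dom (h.big rfl le_rfl (by simp only [aG]; omega))
    · refine ((r.h4 rw').1 p).elim (old (by omega)) fun k => ?_
      rw [arcOf4, (y2 v k 4 (.inr rfl)).2]
      exact h.dom (h.big rfl le_rfl (by simp only [aU]; omega))
  · rintro ⟨s'', d''⟩ t5 ⟨rfl, N', il', e1, e2, -, u5, -⟩
    have n : FinN X.P.D X.C X.G d W.toFinset d'' N N' X.C.lam := by
      refine ⟨e1, fun e k => (e2 e k).1, fun e k p q => ?_, fun v k => ⟨?_, ?_⟩, fun v k => ?_⟩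
      · rw [(e2 e k).2]; split_ifs with z
        exacts [y1 e z ((e1 e).1 k) p q, rfl]
      · rw [(e2 _ ((e1 _).2 ((r.h3 rw').2 (.inr k)))).2, if_pos (y2 v k 3 (.inl rfl)).1,
          (y2 v k 3 (.inl rfl)).2]
      · rw [(e2 _ ((e1 _).2 ((r.h4 rw').2 (.inr k)))).2, if_pos (y2 v k 4 (.inr rfl)).1,
          (y2 v k 4 (.inr rfl)).2]
      · rw [(e2 _ ((e1 _).2 ((r.h3 rw').2 (.inl (mem_fnH.1 k))))).2]
        split_ifs with z
        · rw [y3 v k, y4 v k z]
        · rw [fnF, sum_eq_zero fun p j => absurd ((mL _).2 (.inr ?_)) z, add_zero]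
          obtain ⟨j1, j2⟩ := mem_filter.1 j
          obtain ⟨j0, j1⟩ := mem_fnP.1 j1
          exact ⟨p, (has0.1 j0).1, List.mem_toFinset.1 j1, .inr (.inr (.inl (by rw [j2])))⟩
    refine ⟨N', W, O, ⟨il', n.arcs r rw' w c a, r.cmb rw' c, r.qOk i.q⟩, F, n, ?_⟩
    have z : t0 + t1 + t3 + t4 + (64 * X.k.AU + 120) * (W.length + 1) ≤
        X.κ * (X.C.Z * (W.length + 1)) := by
      have := h.κ_le; have := h.Z.1
      have : 6 * X.C.K + 400 + 64 * X.k.AU ≤ X.κ * X.C.Z := by nlinarith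
      have := Nat.mul_le_mul_right (W.length + 1) this
      nlinarith
    have z' : (t0 + t1 + t3 + t4 + (64 * X.k.AU + 120) * (W.length + 1) : ℝ) ≤
        X.κ * (X.C.Z * (W.length + 1)) := by exact_mod_cast z
    have q3 := mul_le_mul_of_nonneg_left lL (show (0 : ℝ) ≤ X.k.AU by linarith)
    have := Nat.cast_nonneg (α := ℝ) W.length
    dsimp only at u5 ⊢
    push_cast
    nlinarith

end Cx

end Crest.Agent.N325.P2
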