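import Crest.Agent.N325.P2.Rp
import Crest.Agent.N325.Ag.FinE

/-!
# Row 325, AUGMENT (helper94): the last step is implementable
-/

set_option autoImplicit false

namespace Crest.Agent.N325.P2

open Crest.Agent.N325.Tw Crest.Agent.N325.Ip Crest.Agent.N325.Mt Crest.Agent.N325.Bf
open Crest.Agent.N325.Op

variable {T : Type} [Rp T]

@[fun_prop] theorem impl_finDt : Impl fun p : Gf × ℕ × Dt × ℕ =>
    finDt p.1 p.2.1 p.2.2.1 p.2.2.2 := by
  unfold finDt; impl

@[fun_prop] theorem impl_finE : Impl fun p : Env T × S T × ℕ => finE p.1 p.2.1 p.2.2 := by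
  unfold finE accL frs drL; impl

end Crest.Agent.N325.P2
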