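import Crest.Agent.N325.Ag.Defs
import Crest.Agent.N325.Ag.FinD
import Crest.Agent.N325.P2.Clo
import Crest.Agent.N325.P2.Dual

/-!
# Row 325, part II (helper27): AUGMENT from ROT and FINAL
-/

set_option autoImplicit false
open Finset

namespace Crest.Agent.N325.P2

open Crest.Agent.N325.Tw Crest.Agent.N325.Ip Crest.Agent.N325.Mt Crest.Agent.N325.Bf
open Crest.Agent.N325.Dm Crest.Agent.N325.On

/-- a path survives when its arcs do -/
theorem pth_tr {B B' : Bg} {u x : ℕ} {l : List (ℕ × ℕ)} (h : B.Pth u x l)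
    (k : ∀ p ∈ l, ∀ y, B.Arc p y → B'.Arc p y) : B'.Pth u x l := by
  induction h with
  | nil => exact .nil
  | cons _ a ih =>
    exact .cons (ih fun p hp => k p (List.mem_cons_of_mem _ hp)) (k _ List.mem_cons_self _ a)

theorem len_le_wsum (d : Dt) (L : List ℕ) : L.length ≤ wsum (wtC d) L := by
  induction L with
  | nil => simp
  | cons a L ih => simp only [On.wsum, wtC, List.map_cons, List.sum_cons, List.length_cons] at *; omega

theorem le_wsum (w : ℕ → ℕ) {L : List ℕ} {a : ℕ} (h : a ∈ L) : w a ≤ wsum w L :=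
  List.single_le_sum (fun _ _ => Nat.zero_le _) _ (List.mem_map_of_mem h)

/-- what the rotations keep -/
structure Kp (G : Gf) (d d' : Dt) : Prop where
  st : d'.st = d.st
  cls : d'.cls = d.cls
  cw : d'.cw = d.cw
  ok : ∀ a < G.n, d.st.get a = 1 → ∀ p ∈ G.adj.get a, (bgOf G d').ok a p = (bgOf G d).ok a p

variable {G : Gf} {d d' d'' : Dt}

theorem Kp.refl : Kp G d d := ⟨rfl, rfl, rfl, fun _ _ _ _ _ => rfl⟩
theorem Kp.trans (h : Kp G d d') (k : Kp G d' d'') : Kp G d d'' :=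
  ⟨k.st.trans h.st, k.cls.trans h.cls, k.cw.trans h.cw, fun a i j p q =>
    (k.ok a i (h.st ▸ j) p q).trans (h.ok a i j p q)⟩
theorem RotD.kp {c r : ℕ} (h : RotD G d d' c r) : Kp G d d' := ⟨h.st, h.cls, h.cw, h.ok⟩
theorem Kp.isC (h : Kp G d d') : isC G d' = isC G d := by
  funext c; unfold P2.isC; rw [h.st, h.cls]
theorem Kp.wt (h : Kp G d d') : wtC d' = wtC d := by funext c; unfold wtC; rw [h.cw]

/-- an arc through an inner vertex in the new view -/
theorem Kp.arc (h : Kp G d d') {B : Bg} (a1 : B.adj = (bgOf G d).adj) (a2 : B.ok = (bgOf G d).ok)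
    (a3 : B.hd = (bgOf G d).hd) {p : ℕ × ℕ} {y : ℕ} (m : (bgOf G d').mu p.1 = B.mu p.1)
    (i : ∀ a, B.mu p.1 = some a → a < G.n ∧ d.st.get a = 1) (k : B.Arc p y) :
    (bgOf G d').Arc p y := by
  obtain ⟨a, e1, e2, e3, e4⟩ := k
  rw [a1] at e2; rw [a2] at e3; rw [a3] at e4
  refine ⟨a, m.trans e1, e2, (h.ok a (i a e1).1 (i a e1).2 _ e2).trans e3, ?_⟩
  rw [← e4]
  change d'.cls.get _ = d.cls.get _
  rw [h.cls]

namespace Cx
variable {T : Type} {X : Cx T} {rot : S T → ℕ → R (S T)} {fin : S T → ℕ → R (S T)}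

theorem RoomN.mono {s : S T} {i j : ℕ} (h : X.RoomN s j) (k : i ≤ j) : X.RoomN s i := by
  have a : (i : ℝ) ≤ j := by exact_mod_cast k
  have := mul_le_mul_of_nonneg_right a (by positivity : (0 : ℝ) ≤ 2 * X.k.AU)
  unfold RoomN at *; linarith

/-- **the rotations along a path** make its first class a root -/
theorem sp_rots (h : X.Ok) (hr : X.RotSpec rot) {u j : ℕ} {l : List (ℕ × ℕ)} {r : ℕ} {s : S T}
    {N : Net} (i : X.Inv s N) (ro : X.RoomN s (10 * l.length + j)) (f : RF X.C X.G s.2 N)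
    (hu : isC X.G s.2 u) (p : (bgOf X.G s.2).Pth u r l) (nd : (nds r l).Nodup)
    (rt : (bgOf X.G s.2).mu r = none) :
    Sp X.g (rots rot l s) fun s' t => ∃ N', X.Inv s' N' ∧ X.RoomN s' j ∧ RF X.C X.G s'.2 N' ∧
      Kp X.G s.2 s'.2 ∧ (bgOf X.G s'.2).mu u = none ∧
      (∀ y x, Lk r l y x → (bgOf X.G s'.2).mu y = (bgOf X.G s.2).mu x) ∧
      (∀ y, isC X.G s.2 y → y ≠ u → (∀ x, ¬Lk r l y x) →
        (bgOf X.G s'.2).mu y = (bgOf X.G s.2).mu y) ∧
      t + X.Tot s' N' ≤ X.Tot s N + X.κ * (X.C.Z * wsum (wtC s.2) (nds r l)) + l.length + 1 := by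
  induction l generalizing r s N with
  | nil =>
    cases p
    refine ⟨Nat.zero_le _, N, i, ro.mono (by omega), f, .refl, rt, fun _ _ k => k.elim,
      fun _ _ _ _ => rfl, ?_⟩
    have : (0 : ℝ) ≤ X.κ * (X.C.Z * wsum (wtC s.2) (nds u [])) := by positivity
    simp only [List.length_nil]; push_cast; linarith
  | cons q l ih =>
    have cl := pth_cl (wf_bgOf h.wf i.cmb) hu p
    cases p with | @cons x _ e _ p a => ?_
    have nd' : r ∉ nds x l ∧ (nds x l).Nodup := List.nodup_cons.1 nd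
    have cx : isC X.G s.2 x := cl x (List.mem_cons_of_mem _ List.mem_cons_self)
    have cr : isC X.G s.2 r := cl r List.mem_cons_self
    have rx : r ≠ x := fun e => nd'.1 (e ▸ List.mem_cons_self)
    rw [List.length_cons] at ro
    refine ⟨Nat.zero_le _, (hr s N x e r i (ro.mono (by omega)) f cx a rt).bind ?_⟩
    rintro s1 t1 ⟨N1, i1, f1, d1, pt, tt⟩
    have k1 := d1.kp
    have off : ∀ y ∈ l.map Prod.fst, (bgOf X.G s1.2).mu y = (bgOf X.G s.2).mu y := fun y hy => by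
      rw [d1.mu y (cl y (List.mem_cons_of_mem _ (List.mem_cons_of_mem _ hy))),
        if_neg fun e : y = x => (List.nodup_cons.1 nd'.2).1 (e ▸ hy),
        if_neg fun e : y = r => nd'.1 (e ▸ List.mem_cons_of_mem _ hy)]
    have ro1 : X.RoomN s1 (10 * l.length + j) := by
      unfold RoomN at *; push_cast at *; linarith
    refine (ih i1 ro1 f1 (k1.isC ▸ hu) (pth_tr p fun q hq y => k1.arc rfl rfl rfl
      (off _ (List.mem_map_of_mem hq)) fun a e => ?_) nd'.2 (by rw [d1.mu x cx, if_pos rfl])).mono ?_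
    · have := (isBg_bgOf h.wf i.cmb).inner i.cmb
        (cl _ (List.mem_cons_of_mem _ (List.mem_cons_of_mem _ (List.mem_map_of_mem hq)))) e
      exact ⟨this.1, this.2.1⟩
    rintro s2 t2 ⟨N2, i2, ro2, f2, k2, m0, m1, m2, tt2⟩
    refine ⟨N2, i2, ro2, f2, k1.trans k2, m0, fun y z k => ?_, fun y cy ne k => ?_, ?_⟩
    · rcases k with ⟨rfl, rfl⟩ | k
      · rw [m2 y (k1.isC ▸ cr) (fun e => nd'.1 (e ▸ pth_mem p)) fun z k => nd'.1 k.mem.1,
          d1.mu y cr, if_neg rx, if_pos rfl]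
      · rw [m1 y z k, off z k.mem.2]
    · rw [m2 y (k1.isC ▸ cy) ne fun z c => k z (.inr c), d1.mu y cy, if_neg, if_neg]
      · exact fun e => k x (.inl ⟨e, rfl⟩)
      · rintro rfl
        cases p with
        | nil => exact ne rfl
        | cons => exact k _ (.inr (.inl ⟨rfl, rfl⟩))
    · rw [k1.wt] at tt2
      have : wsum (wtC s.2) (nds r ((x, e) :: l)) = wtC s.2 r + wsum (wtC s.2) (nds x l) := rfl
      rw [this, List.length_cons]; push_cast at *; linarith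

/-- **AUGMENT** -/
theorem augSpec (h : X.Ok) (hr : X.RotSpec rot) (hf : X.FinSpec fin) {Wa : ℕ} (hA : X.AugNum Wa) :
    X.AugSpec Wa (aug rot fin) := by
  intro s N o q p1 p2 ov i ro qu hQ nD s2 F r1 P2 n2 u2 r2 hW
  have lo : o < X.G.nd := i.q.lt o (hQ ▸ List.mem_cons_self)
  obtain ⟨s1, c1, c2, ne⟩ := ends_of_not_done h.wf i.cmb lo nD s2
  have l1 := len_le_wsum s.2 (nds p1.1 p1.2)
  have l2 := len_le_wsum s.2 (nds p2.1 p2.2)
  have w1 := le_wsum (wtC s.2) (pth_mem F.pth)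
  have w2 := le_wsum (wtC s.2) (pth_mem P2)
  simp only [nds, List.length_cons, List.length_map] at l1 l2
  change _ ≤ On.wsum _ (nds _ _) at l1 l2
  refine (sp_rots h hr (j := 10 * p2.2.length + 40 * (X.G.n + 1)) i (ro.mono (by omega))
    (RF.of_flo i.arcs (i.flo10 h qu) (by omega)) c1 F.pth F.nd r1).bind ?_
  rintro sa ta ⟨Na, ia, roa, fa, ka, m0, m1, m2, tta⟩
  have mu : ∀ y, isC X.G s.2 y → (bgOf X.G sa.2).mu y =
      (flip (bgOf X.G s.2) (s.2.cls.get (X.G.tl.get o)) ov).mu y := fun y cy => by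
    by_cases e : y = s.2.cls.get (X.G.tl.get o)
    · rw [e, m0, flip_u]
    by_cases c : ∃ x, Lk p1.1 p1.2 y x
    · obtain ⟨x, c⟩ := c; rw [m1 y x c, F.mu_lk c]
    · rw [m2 y cy e fun x k => c ⟨x, k⟩, F.mu_no e fun x k => c ⟨x, k⟩]
  have cl := pth_cl F.wf' c2 P2
  refine (sp_rots h hr ia roa fa (ka.isC ▸ c2) (pth_tr P2 fun p hp y => ka.arc
    (B := flip (bgOf X.G s.2) (s.2.cls.get (X.G.tl.get o)) ov) rfl rfl rfl
    (mu _ (cl _ (List.mem_cons_of_mem _ (List.mem_map_of_mem hp)))) fun a e => ?_) n2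
    ((mu _ (cl _ List.mem_cons_self)).trans r2)).bind ?_
  · obtain ⟨-, x, cx, e', -⟩ := F.src (cl _ (List.mem_cons_of_mem _ (List.mem_map_of_mem hp))) e
    have := (isBg_bgOf h.wf i.cmb).inner i.cmb cx e'
    exact ⟨this.1, this.2.1⟩
  rintro sb tb ⟨Nb, ib, rob, -, kb, n0, -, n2, ttb⟩
  have k := ka.trans kb
  refine (hf sb Nb o ib rob lo (k.st ▸ s1) (k.st ▸ s2) (k.cls ▸ ne) (k.cls ▸ ?_) (k.cls ▸ n0)).mono ?_
  · rw [n2 _ (ka.isC ▸ c1) ne fun x c => u2 c.mem.1, m0]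
  rintro s' t ⟨N', i', tt⟩
  refine ⟨N', i', ?_⟩
  rw [k.wt, k.cls] at tt
  rw [ka.wt] at ttb
  unfold AugNum at hA
  have hZ : (20000 : ℝ) ≤ X.C.Z := by exact_mod_cast h.Z_pos
  have hk : (1 : ℝ) ≤ X.κ := by have := h.κ_le; exact_mod_cast (by omega : 1 ≤ X.κ)
  have hL := h.Lg_nonneg
  have hb : (0 : ℝ) ≤ X.C.Ph * X.C.B / X.P.D := by positivity
  generalize wsum (wtC s.2) (nds p1.1 p1.2) = W1 at *
  generalize wsum (wtC s.2) (nds p2.1 p2.2) = W2 at *
  generalize wtC s.2 (s.2.cls.get (X.G.tl.get o)) = a1 at *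
  generalize wtC s.2 (s.2.cls.get (X.G.hd o)) = a2 at *
  have b1 : (p1.2.length + 1 + (p2.2.length + 1) : ℝ) ≤ Wa := by exact_mod_cast (by omega)
  have b2 : (W1 + W2 + 15 * (a1 + a2) : ℝ) ≤ 16 * Wa := by exact_mod_cast (by omega)
  have W0 : (0 : ℝ) ≤ Wa := by positivity
  have b3 : (Wa : ℝ) ≤ X.κ * (X.C.Z * Wa) :=
    (le_mul_of_one_le_left W0 (by linarith)).trans (le_mul_of_one_le_left (by positivity) hk)
  have b4 : (13 * X.C.Ph * X.C.B / X.P.D + 15 * (a1 + a2) + (W1 + W2) + Wa : ℝ) ≤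
      20 * X.C.Ph * X.C.B / X.P.D + (X.Lg + 100) * (Wa + 10) := by
    have : (0 : ℝ) ≤ X.Lg * (Wa + 10) := by positivity
    rw [mul_assoc, mul_div_assoc, mul_assoc, mul_div_assoc 20]; nlinarith
  have b5 := mul_le_mul_of_nonneg_left
    ((mul_le_mul_of_nonneg_left b4 (by positivity : (0 : ℝ) ≤ X.C.Z)).trans hA)
    (by positivity : (0 : ℝ) ≤ X.κ)
  push_cast; nlinarith

end Cx

end Crest.Agent.N325.P2
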