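import Crest.Agent.N325.Ag.Defs
import Crest.Agent.N325.P2.Rp

/-!
# Row 325, part II (helper27): AUGMENT is implementable
-/

set_option autoImplicit false

namespace Crest.Agent.N325.P2

variable {α T : Type} [Rp α] [Rp T] {rot fin : Env T → S T → ℕ → R (S T)} {E : α → Env T}

theorem impl_rots (hr : Impl fun p : Env T × S T × ℕ => rot p.1 p.2.1 p.2.2)
    {l : α → List (ℕ × ℕ)} {s : α → S T} (hE : Pu true E) (hl : Pu true l) (hs : Pu true s) :
    Impl fun a => rots (rot (E a)) (l a) (s a) := by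
  have h : Impl fun p : Env T × List (ℕ × ℕ) × S T => rots (rot p.1) p.2.1 p.2.2 := by
    unfold rots
    exact Impl.foldL (hr.comp (f := fun q : (Env T × List (ℕ × ℕ) × S T) × (ℕ × ℕ) × S T =>
      (q.1.1, q.2.2, q.2.1.2)) (by impl)) (by impl) (by impl)
  exact h.comp (f := fun a => (E a, l a, s a)) (hE.pair (hl.pair hs))

/-- the form used by `edgeE` -/
theorem impl_aug (hr : Impl fun p : Env T × S T × ℕ => rot p.1 p.2.1 p.2.2)
    (hf : Impl fun p : Env T × S T × ℕ => fin p.1 p.2.1 p.2.2)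
    {s : α → S T} {o : α → ℕ} {q : α → List ℕ} {p1 p2 : α → ℕ × List (ℕ × ℕ)} (hE : Pu true E)
    (hs : Pu true s) (ho : Pu true o) (h1 : Pu true p1) (h2 : Pu true p2) :
    Impl fun a => aug (rot (E a)) (fin (E a)) (s a) (o a) (q a) (p1 a) (p2 a) := by
  unfold aug
  refine Impl.bind (impl_rots hr hE (by impl) hs) (Impl.bind (impl_rots hr (by impl) (by impl)
    (by impl)) (hf.comp (f := fun q : (α × S T) × S T => (E q.1.1, q.2, o q.1.1)) (by impl)))

end Crest.Agent.N325.P2
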