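import Crest.Agent.N325.Ag.RotD
import Crest.Agent.N325.P2.Util

/-!
# Row 325, part II (helper96): ROT, the combinatorial side
-/

set_option autoImplicit false
open Finset

namespace Crest.Agent.N325.P2

open Crest.Agent.N325.Tw Crest.Agent.N325.Ip Crest.Agent.N325.Mt Crest.Agent.N325.Bf
open Crest.Agent.N325.Dm Crest.Agent.N325.On Crest.Agent.N325.Op

/-- the situation before ROT -/
structure RH0 (G : Gf) (d : Dt) (a x b c e e' : ℕ) : Prop where
  wf : G.WF
  cm : Cmb G d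
  he : e < G.nd
  he' : e' < G.nd
  tle : G.tl.get e = a
  hde : G.hd e = x
  tle' : G.tl.get e' = a
  hde' : G.hd e' = b
  mb : d.mt.get a = b
  cx : d.cls.get x = c
  sa : d.st.get a = 1
  pr : d.pr.get (rv e) = true
  rt : d.mt.get (d.bs.get c) = d.bs.get c

/-- the situation before and after ROT -/
structure RH (G : Gf) (d d' : Dt) (a x b c e e' : ℕ) : Prop extends RH0 G d a x b c e e' where
  st' : d'.st = d.st
  cls' : d'.cls = d.cls
  mem' : d'.mem = d.mem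
  cw' : d'.cw = d.cw
  Q' : d'.Q = d.Q
  bs' : ∀ y, d'.bs.get y = if y = c then x else d.bs.get y
  pr' : ∀ p, d'.pr.get p = if p = rv e' then true else if p = rv e then false else d.pr.get p
  mb' : d'.mt.get b = b
  ma' : d'.mt.get a = x
  mx' : d'.mt.get x = a
  mS : ∀ v ∈ d.mem.get c, v ≠ x → d'.mt.get v ∈ d.mem.get c ∧ d'.mt.get v ≠ x ∧
    d'.mt.get v ≠ v ∧ d'.mt.get (d'.mt.get v) = v ∧ G.E v (d'.mt.get v)
  mo : ∀ v, v ∉ d.mem.get c → v ≠ a → v ≠ b → d'.mt.get v = d.mt.get v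

variable {G : Gf} {d d' : Dt} {a x b c e e' : ℕ}

namespace RH0
variable (h : RH0 G d a x b c e e')
include h

theorem a_lt : a < G.n := h.tle ▸ h.wf.tl_lt e h.he
theorem x_lt : x < G.n := h.hde ▸ h.wf.hd_lt h.he
theorem b_lt : b < G.n := h.hde' ▸ h.wf.hd_lt h.he'
theorem sx : d.st.get x = 2 := h.hde ▸ (h.cm.pr _ (h.wf.rv_lt h.he) h.pr).1
theorem mx : d.mt.get x ≠ a := by
  have := (h.cm.pr _ (h.wf.rv_lt h.he) h.pr).2.2
  rwa [Gf.tl_rv, Gf.hd_rv, h.hde, h.tle] at this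
theorem sb : d.st.get b = 2 := h.mb ▸ (h.cm.inn a h.a_lt h.sa).1
theorem bb : d.bs.get (d.cls.get b) = b := h.mb ▸ (h.cm.inn a h.a_lt h.sa).2
theorem mtb : d.mt.get b = a := h.mb ▸ h.cm.mt_mt h.a_lt
theorem ab : a ≠ b := fun k => by have := h.sa; have := h.sb; rw [← k] at this; omega
theorem ax : a ≠ x := fun k => by have := h.sa; have := h.sx; rw [← k] at this; omega
theorem xb : x ≠ b := fun k => h.mx (k ▸ h.mtb)
theorem isc : isC G d c := h.cx ▸ h.cm.out x h.x_lt h.sx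
theorem isb : isC G d (d.cls.get b) := h.cm.out b h.b_lt h.sb
theorem mem_iff {v : ℕ} : v ∈ d.mem.get c ↔ v < G.n ∧ d.st.get v = 2 ∧ d.cls.get v = c :=
  h.cm.mem c h.isc v
theorem xm : x ∈ d.mem.get c := h.mem_iff.2 ⟨h.x_lt, h.sx, h.cx⟩
theorem rm : d.bs.get c ∈ d.mem.get c := (h.cm.bs c h.isc).1
theorem cb : d.cls.get b ≠ c := fun k => by
  have a1 := h.bb; have a2 := h.rt
  rw [k] at a1; rw [a1, h.mtb] at a2; exact h.ab a2
theorem am : a ∉ d.mem.get c := fun k => by have := (h.mem_iff.1 k).2.1; have := h.sa; omega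
theorem bm : b ∉ d.mem.get c := fun k => h.cb (h.mem_iff.1 k).2.2
theorem ee : rv e ≠ rv e' := fun k => by
  have := congrArg rv k
  rw [rv_rv, rv_rv] at this
  exact h.xb (by rw [← h.hde, ← h.hde', this])
theorem pr0 : d.pr.get (rv e') = false := by
  by_contra k
  have := (h.cm.pr _ (h.wf.rv_lt h.he') (by simpa using k)).2.2
  rw [Gf.tl_rv, Gf.hd_rv, h.hde', h.tle'] at this
  exact this h.mtb
/-- the class is closed under the old matching -/
theorem mt_mem {v : ℕ} (k : v ∈ d.mem.get c) : d.mt.get v ∈ d.mem.get c := by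
  by_cases q : v = d.bs.get c
  · rw [q, h.rt]; exact h.rm
  · exact (h.cm.inside c h.isc v k q).1
theorem mt_notMem {v : ℕ} (hv : v < G.n) (k : v ∉ d.mem.get c) : d.mt.get v ∉ d.mem.get c :=
  fun q => k (h.cm.mt_mt hv ▸ h.mt_mem q)
theorem eq_o {p : ℕ} (hp : p < G.nd) (k1 : G.tl.get p = x) (k2 : G.hd p = a) : p = rv e :=
  h.wf.simple p hp _ (h.wf.rv_lt h.he) (by rw [k1, Gf.tl_rv, h.hde]) (by rw [k2, Gf.hd_rv, h.tle])
theorem eq_o' {p : ℕ} (hp : p < G.nd) (k1 : G.tl.get p = b) (k2 : G.hd p = a) : p = rv e' :=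
  h.wf.simple p hp _ (h.wf.rv_lt h.he') (by rw [k1, Gf.tl_rv, h.hde'])
    (by rw [k2, Gf.hd_rv, h.tle'])

/-- the hypotheses of `rebase` -/
theorem isP : IsP ((d.mem.get c).toFinset.erase (d.bs.get c)) G.E d.mt.get := by
  refine ⟨fun v hv => ?_, fun v hv => ?_⟩ <;>
    obtain ⟨k1, k2⟩ := mem_erase.1 hv <;> rw [List.mem_toFinset] at k2
  · have lt := (h.mem_iff.1 k2).1
    refine ⟨mem_erase.2 ⟨fun q => k1 ?_, List.mem_toFinset.2 (h.mt_mem k2)⟩, h.cm.mt_mt lt,
      h.cm.isM.adj (mem_range.2 lt)⟩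
    rw [← h.cm.mt_mt lt, q, h.rt]
  · exact (h.cm.inside c h.isc v k2 k1).2

theorem rh {m1 : Arr ℕ} (p : IsP ((d.mem.get c).toFinset.erase x) G.E m1.get)
    (o : ∀ v, v ∉ (d.mem.get c).toFinset.erase x → m1.get v = d.mt.get v) :
    RH G d (rotD G d m1 e e') a x b c e e' := by
  have ab := h.ab; have ax := h.ax; have xb := h.xb
  have M : ∀ v, (rotD G d m1 e e').mt.get v =
      if v = b then b else if v = a then x else if v = x then a else m1.get v := fun v => by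
    simp only [rotD, h.tle, h.hde, h.mb, Arr.get_set]
  have S : ∀ v ∈ d.mem.get c, v ≠ x → (rotD G d m1 e e').mt.get v = m1.get v := fun v k q => by
    rw [M, if_neg fun z : v = b => h.bm (z ▸ k), if_neg fun z : v = a => h.am (z ▸ k), if_neg q]
  refine { h with
    st' := rfl, cls' := rfl, mem' := rfl, cw' := rfl, Q' := rfl
    bs' := fun y => by simp only [rotD, h.hde, h.cx, Arr.get_set]
    pr' := fun p => by simp only [rotD, Arr.get_set]
    mb' := by rw [M, if_pos rfl]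
    ma' := by rw [M, if_neg ab, if_pos rfl]
    mx' := by rw [M, if_neg xb, if_neg ax.symm, if_pos rfl]
    mS := fun v k q => ?_
    mo := fun v k q1 q2 => ?_ }
  · have hv : v ∈ (d.mem.get c).toFinset.erase x := mem_erase.2 ⟨q, List.mem_toFinset.2 k⟩
    obtain ⟨k1, k2⟩ := mem_erase.1 (p.1.mem hv)
    rw [List.mem_toFinset] at k2
    rw [S v k q, S _ k2 k1]
    exact ⟨k2, k1, p.2 v hv, p.1.inv hv, p.adj hv⟩
  · rw [M, if_neg q2, if_neg q1, if_neg fun z : v = x => k (z ▸ h.xm)]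
    exact o v fun z => k (List.mem_toFinset.1 (mem_of_mem_erase z))

end RH0

namespace RH
variable (h : RH G d d' a x b c e e')
include h

theorem isC_iff {y : ℕ} : isC G d' y ↔ isC G d y := by simp only [isC, h.st', h.cls']

theorem isM : IsM (range G.n) G.E d'.mt.get := by
  have h0 := h.toRH0
  have ea : G.E a x := ⟨e, h.he, h.tle, h.hde⟩
  intro v hv
  rw [mem_range] at hv ⊢
  by_cases k1 : v = b
  · rw [k1, h.mb', h.mb']; exact ⟨h0.b_lt, rfl, fun q => absurd rfl q⟩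
  by_cases k2 : v = a
  · rw [k2, h.ma', h.mx']; exact ⟨h0.x_lt, rfl, fun _ => ea⟩
  by_cases k3 : v = x
  · rw [k3, h.mx', h.ma']; exact ⟨h0.a_lt, rfl, fun _ => h.wf.symm _ _ ea⟩
  by_cases k4 : v ∈ d.mem.get c
  · obtain ⟨p1, -, -, p4, p5⟩ := h.mS v k4 k3
    exact ⟨(h0.mem_iff.1 p1).1, p4, fun _ => p5⟩
  · have q := h.cm.mt_mt hv
    rw [h.mo v k4 k2 k1, h.mo _ (h0.mt_notMem hv k4) (fun z => k1 (by rw [← q, z, h.mb]))
      fun z => k2 (by rw [← q, z, h0.mtb])]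
    exact ⟨h.cm.mt_lt hv, q, h.cm.isM.adj (mem_range.2 hv)⟩

/-- vertices that are not outer, other than `a` -/
theorem mo2 {v : ℕ} (k : d.st.get v ≠ 2) (q : v ≠ a) : d'.mt.get v = d.mt.get v :=
  h.mo v (fun z => k (h.toRH0.mem_iff.1 z).2.1) q fun z => k (z ▸ h.toRH0.sb)
/-- outer vertices of other classes, other than `b` -/
theorem mo3 {v : ℕ} (s : d.st.get v = 2) (k : d.cls.get v ≠ c) (q : v ≠ b) :
    d'.mt.get v = d.mt.get v :=
  h.mo v (fun z => k (h.toRH0.mem_iff.1 z).2.2) (fun z => by have := h.sa; rw [← z] at this; omega) q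

theorem cmb : Cmb G d' := by
  have h0 := h.toRH0
  have c0 := h.cm
  refine ⟨h.isM, ?_, ?_, fun v hv s => ?_, fun v hv s => ?_, ?_, ?_, ?_, ?_, fun y hy => ?_,
    fun y hy v hv q => ?_, ?_, fun p hp k => ?_⟩
  · rw [h.st']; exact c0.st_le
  · rw [h.st', h.cls']; exact c0.cls_ne
  · rw [h.st'] at s ⊢
    rw [h.mo2 (by omega) fun z => by have := h.sa; rw [← z] at this; omega]
    exact c0.unl v hv s
  · rw [h.st'] at s ⊢
    rw [h.cls', h.bs']
    by_cases k : v = a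
    · rw [k, h.ma', h.cx, if_pos rfl]; exact ⟨h0.sx, rfl⟩
    · obtain ⟨p1, p2⟩ := c0.inn v hv s
      rw [h.mo2 (by omega) k, if_neg fun z => ?_]
      · exact ⟨p1, p2⟩
      · have := h0.mt_mem (h0.mem_iff.2 ⟨c0.mt_lt hv, p1, z⟩)
        rw [c0.mt_mt hv] at this
        have := (h0.mem_iff.1 this).2.1
        omega
  · simp only [h.isC_iff, h.st', h.cls']; exact c0.out
  · simp only [h.isC_iff, h.mem']; exact c0.nodup
  · simp only [h.isC_iff, h.mem', h.st', h.cls']; exact c0.mem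
  · simp only [h.isC_iff, h.mem', h.cw']; exact c0.cw
  · rw [h.isC_iff] at hy
    rw [h.bs', h.mem', h.st']
    by_cases k : y = c
    · rw [if_pos k, k, h.mx']; exact ⟨h0.xm, .inr h.sa⟩
    · obtain ⟨p1, p2⟩ := c0.bs y hy
      obtain ⟨-, p3, p4⟩ := (c0.mem y hy _).1 p1
      rw [if_neg k]
      by_cases q : d.bs.get y = b
      · exact ⟨p1, .inl (by rw [q, h.mb'])⟩
      · rw [h.mo3 p3 (p4.trans_ne k) q]; exact ⟨p1, p2⟩
  · rw [h.isC_iff] at hy
    rw [h.mem'] at hv ⊢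
    rw [h.bs'] at q
    by_cases k : y = c
    · rw [if_pos k] at q
      rw [k] at hv ⊢
      exact ⟨(h.mS v hv q).1, (h.mS v hv q).2.2.1⟩
    · rw [if_neg k] at q
      obtain ⟨-, p3, p4⟩ := (c0.mem y hy _).1 hv
      rw [h.mo3 p3 (p4 ▸ k) fun z => q (by rw [← p4, z, h0.bb])]
      exact c0.inside y hy v hv q
  · simp only [h.isC_iff, h.mem']; exact c0.fc
  · rw [h.st']
    rw [h.pr'] at k
    by_cases k1 : p = rv e'
    · rw [k1, Gf.tl_rv, Gf.hd_rv, h.hde', h.tle', h.mb']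
      exact ⟨h0.sb, by have := h.sa; omega, h0.ab.symm⟩
    rw [if_neg k1] at k
    by_cases k2 : p = rv e
    · rw [if_pos k2] at k; cases k
    rw [if_neg k2] at k
    obtain ⟨p1, p2, p3⟩ := c0.pr p hp k
    refine ⟨p1, p2, fun z => ?_⟩
    by_cases q1 : G.tl.get p = b
    · rw [q1, h.mb'] at z; exact h.wf.ne p hp (q1.trans z)
    by_cases q2 : G.tl.get p = x
    · rw [q2, h.mx'] at z; exact k2 (h0.eq_o hp q2 z.symm)
    by_cases q3 : d.cls.get (G.tl.get p) = c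
    · have := (h.mS _ (h0.mem_iff.2 ⟨h.wf.tl_lt p hp, p1, q3⟩) q2).1
      rw [z] at this
      exact p2 (h0.mem_iff.1 this).2.1
    · exact p3 (h.mo3 p1 q3 q1 ▸ z)

theorem done {p : ℕ} (hp : p < G.nd) (k : Done G d p) : Done G d' p := by
  have h0 := h.toRH0
  unfold Done at k ⊢
  rw [h.st', h.cls', h.pr']
  by_cases s : d.st.get (G.tl.get p) = 2
  swap
  · exact .inl s
  by_cases k1 : p = rv e'
  · exact .inr (.inl (if_pos k1))
  by_cases k2 : p = rv e
  · exact .inr (.inr (.inl (by rw [k2, Gf.tl_rv, Gf.hd_rv, h.hde, h.tle, h.mx'])))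
  rw [if_neg k1, if_neg k2]
  rcases k with k | k | k | k
  · exact .inl k
  · exact .inr (.inl k)
  · by_cases q1 : G.tl.get p = b
    · rw [q1, h0.mtb] at k; exact absurd (h0.eq_o' hp q1 k.symm) k1
    by_cases q3 : d.cls.get (G.tl.get p) = c
    · have := h0.mt_mem (h0.mem_iff.2 ⟨h.wf.tl_lt p hp, s, q3⟩)
      rw [k, h0.mem_iff] at this
      exact .inr (.inr (.inr ⟨this.2.1, this.2.2.trans q3.symm⟩))
    · exact .inr (.inr (.inl (h.mo3 s q3 q1 ▸ k)))
  · exact .inr (.inr (.inr k))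

theorem qok (q : QOk G d) : QOk G d' := by
  refine ⟨h.Q' ▸ q.lt, fun p hp => ?_⟩
  rw [h.Q', h.st']
  exact (q.cmp p hp).imp_right fun k => k.imp_left (h.done hp)

/-- members of the old root class are matched now -/
theorem mS_ne {v : ℕ} (k : v ∈ d.mem.get c) : d'.mt.get v ≠ v := by
  by_cases q : v = x
  · rw [q, h.mx']; exact h.toRH0.ax
  · exact (h.mS v k q).2.2.1

/-- the exposed vertices -/
theorem exp_iff {v : ℕ} :
    d'.mt.get v = v ↔ v = b ∨ (v ≠ d.bs.get c ∧ d.mt.get v = v) := by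
  have h0 := h.toRH0
  by_cases k1 : v = b
  · simp [k1, h.mb']
  by_cases k2 : v = a
  · rw [k2, h.ma', h.mb]
    simp [h0.ab, h0.ab.symm, h0.ax.symm]
  by_cases k3 : v ∈ d.mem.get c
  · refine ⟨fun z => absurd z (h.mS_ne k3), fun z => ?_⟩
    obtain ⟨z1, z2⟩ := z.resolve_left k1
    exact absurd z2 (h.cm.inside c h0.isc v k3 z1).2
  · rw [h.mo v k3 k2 k1]
    exact ⟨fun z => .inr ⟨fun y => k3 (y ▸ h0.rm), z⟩, fun z => (z.resolve_left k1).2⟩

theorem ex_eq : ex (range G.n) d'.mt.get = ex (range G.n) d.mt.get := by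
  have h0 := h.toRH0
  have r : d.bs.get c ∈ exs (range G.n) d.mt.get :=
    mem_exs.2 ⟨mem_range.2 (h0.mem_iff.1 h0.rm).1, h.rt⟩
  have : exs (range G.n) d'.mt.get = insert b ((exs (range G.n) d.mt.get).erase (d.bs.get c)) := by
    ext v
    simp only [mem_exs, mem_insert, mem_erase, mem_range]
    refine ⟨fun z => (h.exp_iff.1 z.2).imp_right fun y => ⟨y.1, z.1, y.2⟩, fun z => ?_⟩
    rcases z with z | z
    · exact ⟨z ▸ h0.b_lt, z ▸ h.mb'⟩
    · exact ⟨z.2.1, h.exp_iff.2 (.inr ⟨z.1, z.2.2⟩)⟩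
  rw [ex, this, card_insert_of_notMem fun z => h0.ab ?_, card_erase_add_one r, ex]
  rw [← h0.mtb]; exact (mem_exs.1 (mem_of_mem_erase z)).2

theorem rotD : RotD G d d' (d.cls.get b) c := by
  have h0 := h.toRH0
  refine ⟨h.st', h.cls', h.mem', h.cw', h.Q', fun y hy => ?_, fun v hv s p hp => ?_, h.ex_eq⟩
  · simp only [bgOf, h.bs']
    by_cases k1 : y = d.cls.get b
    · rw [if_pos k1, k1, if_neg h0.cb, h0.bb, h.mb', if_pos rfl]
    rw [if_neg k1]
    by_cases k2 : y = c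
    · rw [if_pos k2, if_pos k2, h.mx', if_neg h0.ax, h0.bb, h0.mtb, if_neg h0.ab]
    · obtain ⟨-, p3, p4⟩ := (h.cm.mem y hy _).1 (h.cm.bs y hy).1
      rw [if_neg k2, if_neg k2, h.mo3 p3 (p4.trans_ne k2) fun z => k1 (by rw [← p4, z])]
  · obtain ⟨p1, p2⟩ := (h.wf.mem v hv p).1 hp
    have inj : ∀ q, rv p = rv q → p = q := fun q z => by rw [← rv_rv p, z, rv_rv]
    simp only [bgOf, h.pr']
    by_cases k : v = a
    · rw [k, h.ma', h.mb]
      by_cases k1 : p = e'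
      · simp [k1, h.hde']
      by_cases k2 : p = e
      · simp [k2, h.hde, h.pr]
      have n1 : G.hd p ≠ x := fun z =>
        k2 (h.wf.simple p p1 e h.he (by rw [p2, k, h.tle]) (by rw [z, h.hde]))
      have n2 : G.hd p ≠ b := fun z =>
        k1 (h.wf.simple p p1 e' h.he' (by rw [p2, k, h.tle']) (by rw [z, h.hde']))
      rw [if_neg fun z => k1 (inj _ z), if_neg fun z => k2 (inj _ z)]
      simp [n1, n2]
    · rw [if_neg fun z => k (by rw [← p2, inj _ z, h.tle']),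
        if_neg fun z => k (by rw [← p2, inj _ z, h.tle]), h.mo2 (by omega) k]

/-- the arcs that are not touched -/
theorem off {D : ℕ} {C : Cf} {i : ℕ} (k1 : i ≠ 5 * d.bs.get c + 1) (k2 : i ≠ 5 * rv e)
    (k3 : i ≠ 5 * a + 1) (k4 : i ≠ 5 * b + 1) (k5 : i ≠ 5 * rv e') :
    (has G d' i ↔ has G d i) ∧ (has G d i → arcOf D C G d' i = arcOf D C G d i) := by
  have h0 := h.toRH0
  obtain ⟨v, rfl | rfl | rfl | rfl | rfl⟩ := id_cases i
  · rw [has0, has0, arcOf0, arcOf0, h.pr', if_neg (by omega), if_neg (by omega)]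
    exact ⟨Iff.rfl, fun _ => by rw [aP, aP, h.cls']⟩
  · rw [has1, has1, arcOf1, arcOf1, h.st']
    refine ⟨and_congr_right fun hv => or_congr_right ?_, fun z => ?_⟩
    · rw [h.exp_iff]
      exact ⟨fun z => (z.resolve_left (by omega)).2, fun z => .inr ⟨by omega, z⟩⟩
    · rw [aE, aE, h.cls', h.mo v (fun y => ?_) (by omega) (by omega)]
      rcases z.2 with z | z
      · have := (h0.mem_iff.1 y).2.1; omega
      · exact (h.cm.inside c h0.isc v y (by omega)).2 z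
  · rw [has2, has2, arcOf2, arcOf2, h.cw']; exact ⟨h.isC_iff, fun _ => rfl⟩
  · rw [has3, has3, arcOf3, arcOf3, h.st']; exact ⟨Iff.rfl, fun _ => rfl⟩
  · rw [has4, has4, arcOf4, arcOf4, h.st']; exact ⟨Iff.rfl, fun _ => rfl⟩

end RH

end Crest.Agent.N325.P2
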