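import Crest.Agent.N325.P2.Defs2
import Crest.Agent.N325.Op.Gap
import Crest.Agent.N325.Mt.Rebase

/-!
# Row 325, part II (helper96): ROT, moving a root across one inner vertex — program, specification
-/

set_option autoImplicit false
open Finset

namespace Crest.Agent.N325.P2

open Crest.Agent.N325.Tw Crest.Agent.N325.Ip Crest.Agent.N325.Mt Crest.Agent.N325.Bf
open Crest.Agent.N325.Dm Crest.Agent.N325.On Crest.Agent.N325.Op

/-- the flows that ROT needs (and keeps) -/
structure RF (C : Cf) (G : Gf) (d : Dt) (N : Net) : Prop where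
  pl : ∀ o < G.nd, d.pr.get o = true → (C.lam : ℤ) ≤ N.X (5 * o)
  inn : ∀ v < G.n, d.st.get v = 1 → N.X (5 * v + 1) + 2 * C.lam ≤ C.B
  rt : ∀ v < G.n, d.mt.get v = v → N.X (5 * v + 1) + C.lam ≤ C.B

/-- the data after ROT: `e` = dart from the inner vertex into the root class, `e'` = its matched
dart, `m1` = the matching after moving the base -/
def rotD (G : Gf) (d : Dt) (m1 : Arr ℕ) (e e' : ℕ) : Dt :=
  ⟨d.st, d.cls, d.mem, d.cw, d.bs.set (d.cls.get (G.hd e)) (G.hd e),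
    ((m1.set (G.hd e) (G.tl.get e)).set (G.tl.get e) (G.hd e)).set (d.mt.get (G.tl.get e))
      (d.mt.get (G.tl.get e)),
    (d.pr.set (rv e) false).set (rv e') true, d.Q⟩

variable {T : Type}

/-- the surgery of ROT on the layer -/
def rotF (E : Env T) (s : Ip.St T) (d d' : Dt) (e e' : ℕ) : R (Ip.St T) := do
  let i1 ← nat (5 * d.bs.get (d.cls.get (E.G.hd e)) + 1)
  let i2 ← nat (5 * rv e)
  let i3 ← nat (5 * E.G.tl.get e + 1)
  let i4 ← nat (5 * d.mt.get (E.G.tl.get e) + 1)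
  let i5 ← nat (5 * rv e')
  let i6 ← nat (5 * d.cls.get (E.G.hd e) + 2)
  let u ← gets E.run E.P [i1, i2, i3, i6] (s, Arr.cst 0)
  let x3 ← int (E.C.B - E.C.lam - u.2.get i2)
  let x4 ← int (E.C.B - E.C.lam)
  let x5 ← int (E.C.B - E.C.lam - u.2.get i3)
  let x6 ← int (u.2.get i6 + (E.C.B - E.C.lam - u.2.get i1))
  let A3 ← arcN (aE E.C d' (E.G.tl.get e))
  let A4 ← arcN (aE E.C d' (d.mt.get (E.G.tl.get e)))
  let A5 ← arcN (aP E.C E.G d' (rv e'))
  let A6 ← arcN (snkA E.C (d.cls.get (E.G.hd e)) (d.cw.get (d.cls.get (E.G.hd e)) + 1))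
  ops E.run E.P [(i1, true, none), (i2, true, none), (i3, true, some (A3, x3)),
    (i4, false, some (A4, x4)), (i5, false, some (A5, x5)), (i6, true, some (A6, x6))] u.1

/-- **ROT** along the dart `e` -/
def rot (E : Env T) (s : S T) (e : ℕ) : R (S T) := do
  let e' ← foldP (fun p u => if E.G.hd p = s.2.mt.get (E.G.tl.get e) then p else u)
    (E.G.adj.get (E.G.tl.get e)) 0
  let m1 ← rebase E.G.av (s.2.mem.get (s.2.cls.get (E.G.hd e))) E.C.fu s.2.mt (E.G.hd e)
  let s' ← rotF E s.1 s.2 (rotD E.G s.2 m1 e e') e e'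
  pure (s', rotD E.G s.2 m1 e e')

/-- the combinatorial effect of ROT: the root moves from the class `r` to the class `c` -/
structure RotD (G : Gf) (d d' : Dt) (c r : ℕ) : Prop where
  st : d'.st = d.st
  cls : d'.cls = d.cls
  mem : d'.mem = d.mem
  cw : d'.cw = d.cw
  Q : d'.Q = d.Q
  mu : ∀ y, isC G d y → (bgOf G d').mu y =
    if y = c then none else if y = r then (bgOf G d).mu c else (bgOf G d).mu y
  ok : ∀ a < G.n, d.st.get a = 1 → ∀ p ∈ G.adj.get a, (bgOf G d').ok a p = (bgOf G d).ok a p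
  ex : ex (range G.n) d'.mt.get = ex (range G.n) d.mt.get

/-- **specification of ROT** -/
def Cx.RotSpec (X : Cx T) (ev : S T → ℕ → R (S T)) : Prop :=
  ∀ s N c e r, X.Inv s N → X.RoomN s 10 → RF X.C X.G s.2 N → isC X.G s.2 c →
    (bgOf X.G s.2).Arc (c, e) r → (bgOf X.G s.2).mu r = none →
    Sp X.g (ev s e) fun s' t => ∃ N', X.Inv s' N' ∧ RF X.C X.G s'.2 N' ∧ RotD X.G s.2 s'.2 c r ∧
      X.Pt s'.1 ≤ X.Pt s.1 + 10 * (2 * X.k.AU) ∧
      t + X.Tot s' N' ≤ X.Tot s N + X.κ * (X.C.Z * wtC s.2 r)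

theorem RF.of_flo {D : ℕ} {C : Cf} {G : Gf} {d : Dt} {N : Net} {l : ℕ} (a : Arcs D C G d N)
    (h : Flo N l) (hl : 2 * C.lam ≤ l) : RF C G d N := by
  have hl' : 2 * (C.lam : ℤ) ≤ l := by exact_mod_cast hl
  have k : ∀ v < G.n, d.st.get v = 1 ∨ d.mt.get v = v → N.X (5 * v + 1) + l ≤ C.B := by
    intro v hv hs
    have e1 : (5 * v + 1) % 5 = 1 := by omega
    have e2 : (5 * v + 1) / 5 = v := by omega
    have m : 5 * v + 1 ∈ N.E := (a.mem _).2 (by simp only [has, e1, e2]; simpa using ⟨hv, hs⟩)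
    have := (h _ m).2
    rw [a.arc _ m] at this
    simpa [arcOf, e1, e2, aE, capA] using this
  refine ⟨fun o ho p => ?_, fun v hv p => ?_, fun v hv p => ?_⟩
  · have e2 : 5 * o / 5 = o := by omega
    have m : 5 * o ∈ N.E := (a.mem _).2 (by simp only [has, e2]; simpa using ⟨ho, p⟩)
    have := (h _ m).1
    omega
  · have := k v hv (.inl p); omega
  · have := k v hv (.inr p); omega

/-- a fold takes at least one tick per element -/
theorem _root_.Crest.Agent.N325.Sp.foldL_ge {α σ : Type} {g : Gl} {f : α → σ → R σ} {l : List α}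
    {s : σ} {Q : σ → ℕ → Prop} (h : Sp g (foldL f l s) Q) :
    Sp g (foldL f l s) fun a t => Q a t ∧ l.length + 1 ≤ t := by
  induction l generalizing s Q with
  | nil => exact ⟨h.1, h.2, le_rfl⟩
  | cons a l ih =>
    refine ⟨h.1, sp_bind.2 ((sp_bind.1 h.2).mono fun b t k => (ih k).mono fun c u k' => ⟨k'.1, ?_⟩)⟩
    have := k'.2
    rw [List.length_cons]; omega

end Crest.Agent.N325.P2
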