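import Crest.Agent.N325.Ag.RotC
import Crest.Agent.N325.P2.App
import Crest.Agent.N325.Lb.Bar

/-!
# Row 325, part II (helper96): ROT, the flows, and `rotSpec`
-/

set_option autoImplicit false
open Finset

namespace Crest.Agent.N325.P2

open Crest.Agent.N325.Tw Crest.Agent.N325.Ip Crest.Agent.N325.Mt Crest.Agent.N325.Bf
open Crest.Agent.N325.Dm Crest.Agent.N325.On Crest.Agent.N325.Op

section net
variable {N : Net} {v e f : ℕ}

/-- an arc into a node with one arc out of it -/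
theorem le_of_out (c : Cons N) (pos : ∀ i ∈ N.E, 0 ≤ N.X i) (hv : v ≠ 0) (he : e ∈ N.E)
    (hb : (N.arc e).b = v) (hf : f ∈ N.E) (u : ∀ i ∈ N.E, (N.arc i).a = v → i = f) :
    N.X e ≤ N.X f := by
  have a := c v hv
  rw [dv_eq] at a
  have b : N.X e ≤ inf N v :=
    single_le_sum (f := N.X) (fun i k => pos i (mem_filter.1 k).1) (mem_filter.2 ⟨he, hb⟩)
  have d : ouf N v ≤ ∑ i ∈ {f}, N.X i := sum_le_sum_of_subset_of_nonneg
    (fun i k => mem_singleton.2 (u i (mem_filter.1 k).1 (mem_filter.1 k).2))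
    fun i k _ => mem_singleton.1 k ▸ pos f hf
  rw [sum_singleton] at d
  omega

/-- an arc out of a node with one arc into it -/
theorem le_of_in (c : Cons N) (pos : ∀ i ∈ N.E, 0 ≤ N.X i) (hv : v ≠ 0) (he : e ∈ N.E)
    (ha : (N.arc e).a = v) (hf : f ∈ N.E) (u : ∀ i ∈ N.E, (N.arc i).b = v → i = f) :
    N.X e ≤ N.X f := by
  have a := c v hv
  rw [dv_eq] at a
  have b : N.X e ≤ ouf N v :=
    single_le_sum (f := N.X) (fun i k => pos i (mem_filter.1 k).1) (mem_filter.2 ⟨he, ha⟩)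
  have d : inf N v ≤ ∑ i ∈ {f}, N.X i := sum_le_sum_of_subset_of_nonneg
    (fun i k => mem_singleton.2 (u i (mem_filter.1 k).1 (mem_filter.1 k).2))
    fun i k _ => mem_singleton.1 k ▸ pos f hf
  rw [sum_singleton] at d
  omega

variable {D : ℕ} {C : Cf} {G : Gf} {d : Dt}

/-- the only arc out of an inner vertex -/
theorem Arcs.out_inner (A : Arcs D C G d N) (hG : G.WF) (cm : Cmb G d) (s : d.st.get v = 1) :
    ∀ i ∈ N.E, (N.arc i).a = v + 1 → i = 5 * v + 1 := by
  intro i hi k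
  rw [A.arc i hi] at k
  rw [A.mem] at hi
  obtain ⟨w, rfl | rfl | rfl | rfl | rfl⟩ := id_cases i
  · rw [has0] at hi
    have := (cm.out _ (hG.tl_lt w hi.1) (cm.pr w hi.1 hi.2).1).2.1
    simp only [arcOf0, aP, capA, Nat.add_right_cancel_iff] at k
    rw [k] at this; omega
  · simp only [arcOf1, aE, capA] at k; split_ifs at k; omega
  · rw [has2] at hi
    have := hi.2.1
    simp only [arcOf2, snkA, Nat.add_right_cancel_iff] at k
    rw [k] at this; omega
  · simp only [arcOf3, aG] at k; omega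
  · rw [has4] at hi
    simp only [arcOf4, aU, Nat.add_right_cancel_iff] at k
    rw [k] at hi; omega

/-- the only arc into a root class -/
theorem Arcs.in_root (A : Arcs D C G d N) (cm : Cmb G d) (hc : isC G d v)
    (rt : d.mt.get (d.bs.get v) = d.bs.get v) :
    ∀ i ∈ N.E, (N.arc i).b = v + 1 → i = 5 * d.bs.get v + 1 := by
  intro i hi k
  have sv := hc.2.1
  rw [A.arc i hi] at k
  rw [A.mem] at hi
  obtain ⟨w, rfl | rfl | rfl | rfl | rfl⟩ := id_cases i
  · rw [has0] at hi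
    simp only [arcOf0, aP, capA, Nat.add_right_cancel_iff] at k
    exact absurd (k ▸ sv) (cm.pr w hi.1 hi.2).2.1
  · rw [has1] at hi
    simp only [arcOf1, aE, capA, Nat.add_right_cancel_iff] at k
    rcases hi.2 with q | q
    · have := (cm.inn w hi.1 q).2
      rw [k] at this
      rw [this, cm.mt_mt hi.1] at rt
      rw [this, ← rt]
    · rw [q] at k
      by_contra z
      have s : d.st.get w = 2 := by
        by_contra s
        rw [cm.cls_ne w hi.1 s] at k
        exact s (k ▸ sv)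
      exact (cm.inside v hc w ((cm.mem v hc w).2 ⟨hi.1, s, k⟩) fun y => z (by rw [y])).2 q
  · simp only [arcOf2, snkA] at k; omega
  · rw [has3] at hi
    simp only [arcOf3, aG, Nat.add_right_cancel_iff] at k
    exact absurd (k ▸ sv) hi.2
  · simp only [arcOf4, aU] at k; omega
end net

namespace Cx
variable {T : Type} {X : Cx T} {s : St T} {N : Net} {d d' : Dt} {a x b c e e' : ℕ}

theorem sp_rotF (h : X.Ok) (H : RH X.G d d' a x b c e e') (hI : X.I s N)
    (hA : Arcs X.P.D X.C X.G d N) (hR : RF X.C X.G d N)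
    (hF : X.Φ s + 10 * (2 * X.k.AU) ≤ X.Bd.F) :
    Sp X.g (rotF X.toEnv s d d' e e') fun s' t => ∃ N' n, X.I s' N' ∧
      Up X.k X.Φ s s' N N' n t (10 * (2 * X.k.AU) + 12) ∧ 12 ≤ t ∧
      Arcs X.P.D X.C X.G d' N' ∧ RF X.C X.G d' N' ∧
      pot X.P X.Bd N' ≤ pot X.P X.Bd N + (6 * X.Lg + 1) := by
  have h0 := H.toRH0
  have cm := H.cm
  have cm' := H.cmb
  obtain ⟨r, hr⟩ : ∃ r, d.bs.get c = r := ⟨_, rfl⟩
  have rm := hr ▸ h0.rm
  have rt := hr ▸ H.rt
  obtain ⟨rl, rs, rc⟩ := h0.mem_iff.1 rm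
  have al := h0.a_lt; have bl := h0.b_lt; have cl := h0.isc.1; have sa := H.sa
  have ol := H.wf.rv_lt H.he; have ol' := H.wf.rv_lt H.he'
  have ab := h0.ab; have ee := h0.ee; have cb := h0.cb
  have ra : r ≠ a := fun z => h0.am (z ▸ rm)
  have rb : r ≠ b := fun z => h0.bm (z ▸ rm)
  have ca : c ≠ a := fun z => by have := h0.isc.2.1; rw [z] at this; omega
  have ba : d.cls.get b ≠ a := fun z => by have := h0.isb.2.1; rw [z] at this; omega
  have nM := h.n_le_M; have MX := h.M_le_X; have nd := H.wf.nd_le; have BM := h.BD_le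
  have lp := h.lam_pos; have lD := h.lam_le'; have BD := h.B.2; have sl := h.sm.2.2
  -- the old arcs
  have m1 : 5 * r + 1 ∈ N.E := (hA.mem _).2 (has1.2 ⟨rl, .inr rt⟩)
  have m2 : 5 * rv e ∈ N.E := (hA.mem _).2 (has0.2 ⟨ol, H.pr⟩)
  have m3 : 5 * a + 1 ∈ N.E := (hA.mem _).2 (has1.2 ⟨al, .inl sa⟩)
  have m4 : 5 * b + 1 ∉ N.E := fun z => by
    have := (has1.1 ((hA.mem _).1 z)).2
    rw [h0.sb, h0.mtb] at this; omega
  have m5 : 5 * rv e' ∉ N.E := fun z => by
    have := (has0.1 ((hA.mem _).1 z)).2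
    rw [h0.pr0] at this; cases this
  have m6 : 5 * c + 2 ∈ N.E := (hA.mem _).2 (has2.2 h0.isc)
  have a1 : N.arc (5 * r + 1) = capA 0 (c + 1) X.C.B := by
    rw [hA.arc _ m1, arcOf1, aE, rt, if_pos rfl, rc]
  have a2 : N.arc (5 * rv e) = capA (c + 1) (a + 1) X.C.M := by
    rw [hA.arc _ m2, arcOf0, aP, Gf.tl_rv, Gf.hd_rv, H.hde, H.tle, H.cx]
  have a3 : N.arc (5 * a + 1) = capA (a + 1) (d.cls.get b + 1) X.C.B := by
    rw [hA.arc _ m3, arcOf1, aE, H.mb, if_neg ab.symm]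
  have a6 : N.arc (5 * c + 2) = snkA X.C c (d.cw.get c + 1) := by rw [hA.arc _ m6, arcOf2]
  -- the new arcs
  have n3 : has X.G d' (5 * a + 1) := has1.2 ⟨al, .inl (H.st' ▸ sa)⟩
  have n4 : has X.G d' (5 * b + 1) := has1.2 ⟨bl, .inr H.mb'⟩
  have n5 : has X.G d' (5 * rv e') := has0.2 ⟨ol', by rw [H.pr', if_pos rfl]⟩
  have n6 : has X.G d' (5 * c + 2) := has2.2 (H.isC_iff.2 h0.isc)
  have b3 : aE X.C d' a = capA (a + 1) (c + 1) X.C.B := by
    rw [aE, H.ma', if_neg h0.ax.symm, H.cls', H.cx]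
  have b4 : aE X.C d' b = capA 0 (d.cls.get b + 1) X.C.B := by rw [aE, H.mb', if_pos rfl, H.cls']
  have b5 : aP X.C X.G d' (rv e') = capA (d.cls.get b + 1) (a + 1) X.C.M := by
    rw [aP, Gf.tl_rv, Gf.hd_rv, H.hde', H.tle', H.cls']
  have b6 : arcOf X.P.D X.C X.G d' (5 * c + 2) = snkA X.C c (d.cw.get c + 1) := by
    rw [arcOf2, H.cw']
  have w3 := h.wd cm' n3; have w4 := h.wd cm' n4; have w5 := h.wd cm' n5; have w6 := h.wd cm' n6
  have v3 := h.arc cm' n3; have v4 := h.arc cm' n4; have v5 := h.arc cm' n5; have v6 := h.arc cm' n6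
  rw [arcOf1] at w3 w4 v3 v4
  rw [arcOf0] at w5 v5
  rw [b6] at w6 v6
  -- the flows
  have pos : ∀ i ∈ N.E, 0 < N.X i := fun i hi => by
    have := (Inv.pos h hI hi).1
    rw [hA.arc i hi, arcOf_o1] at this; omega
  have pos' : ∀ i ∈ N.E, 0 ≤ N.X i := fun i hi => (pos i hi).le
  have f1 := hR.rt r rl rt
  have f2 := hR.pl _ ol H.pr
  have f3 := hR.inn a al sa
  have f4 : N.X (5 * rv e) ≤ N.X (5 * a + 1) := le_of_out hA.cons pos' (Nat.succ_ne_zero a) m2
    (by rw [a2]; rfl) m3 (hA.out_inner H.wf cm sa)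
  have f5 : N.X (5 * c + 2) ≤ N.X (5 * r + 1) := le_of_in hA.cons pos' (Nat.succ_ne_zero c) m6
    (by rw [a6]; rfl) m1 (hr ▸ hA.in_root cm h0.isc H.rt)
  have f6 := pos _ m6
  have d6 := (h.ip.view hI _ m6).2.2.1
  have g3 : Big X.P (aE X.C d' a) (X.C.B - X.C.lam - N.X (5 * rv e)) :=
    h.big rfl (by omega) (by simp only [aE, capA]; omega)
  have g4 : Big X.P (aE X.C d' b) (X.C.B - X.C.lam) :=
    h.big rfl (by omega) (by simp only [aE, capA]; omega)
  have g5 : Big X.P (aP X.C X.G d' (rv e')) (X.C.B - X.C.lam - N.X (5 * a + 1)) :=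
    h.big rfl (by omega) (by simp only [aP, capA]; omega)
  have g6 : Dom X.Bd (snkA X.C c (d.cw.get c + 1))
      (N.X (5 * c + 2) + (X.C.B - X.C.lam - N.X (5 * r + 1))) := by
    have := h.sm.2.1
    rw [a6] at d6
    simp only [Dom, snkA] at d6 ⊢; omega
  simp only [rotF, sp_bind, sp_nat, H.hde, H.tle, H.cx, H.mb, hr]
  refine ⟨by omega, by omega, by omega, by omega, by omega, by omega, ?_⟩
  refine (sp_gets h.ip hI (l := [5 * r + 1, 5 * rv e, 5 * a + 1, 5 * c + 2]) (Arr.cst 0)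
    (by simp only [List.length_cons, List.length_nil]; push_cast
        have : (0 : ℝ) ≤ X.k.AU := by positivity
        linarith)
    (by simp [m1, m2, m3, m6])).foldL_ge.mono fun u t1 ⟨⟨i1, gu, n1, _, u1⟩, t1l⟩ => ?_
  rw [gu, gu, gu, gu, if_pos (by simp), if_pos (by simp), if_pos (by simp), if_pos (by simp)]
  simp only [sp_int]
  refine ⟨by omega, by omega, by omega, by omega, ?_⟩
  refine (sp_arcN w3).mono fun A3 _ ⟨e3, z3⟩ => (sp_arcN w4).mono fun A4 _ ⟨e4, z4⟩ =>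
    (sp_arcN w5).mono fun A5 _ ⟨e5, z5⟩ => (sp_arcN w6).mono fun A6 _ ⟨e6, z6⟩ => ?_
  subst e3 e4 e5 e6
  obtain ⟨l, hl⟩ : ∃ l : List Ox, l = [(5 * r + 1, true, none), (5 * rv e, true, none),
    (5 * a + 1, true, some (aE X.C d' a, X.C.B - X.C.lam - N.X (5 * rv e))),
    (5 * b + 1, false, some (aE X.C d' b, X.C.B - X.C.lam)),
    (5 * rv e', false, some (aP X.C X.G d' (rv e'), X.C.B - X.C.lam - N.X (5 * a + 1))),
    (5 * c + 2, true, some (snkA X.C c (d.cw.get c + 1),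
      N.X (5 * c + 2) + (X.C.B - X.C.lam - N.X (5 * r + 1))))] := ⟨_, rfl⟩
  rw [← hl]
  have ll : l.length = 6 := by rw [hl]; rfl
  have lm : ∀ i, i ∈ l.map Prod.fst ↔ i = 5 * r + 1 ∨ i = 5 * rv e ∨ i = 5 * a + 1 ∨
      i = 5 * b + 1 ∨ i = 5 * rv e' ∨ i = 5 * c + 2 := fun i => by simp [hl]
  have nd' : (l.map Prod.fst).Nodup := by
    simp only [hl, List.map_cons, List.map_nil, List.nodup_cons, List.mem_cons, List.not_mem_nil,
      List.nodup_nil, not_false_eq_true, and_true, or_false]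
    omega
  simp only [List.length_cons, List.length_nil] at t1l
  have ph : X.Φ u.1 ≤ X.Φ s + 4 * (2 * X.k.AU) := by
    have := u1.time
    have k : (5 : ℝ) ≤ t1 := by exact_mod_cast (by omega : 5 ≤ t1)
    have : (0 : ℝ) ≤ X.k.cl * n1.length := by positivity
    simp only [List.length_cons, List.length_nil] at *
    push_cast at *; linarith
  refine (sp_ops h.ip i1 (l := l) (by rw [ll]; push_cast; linarith) (oks_of_nodup nd' ?_)).foldL_ge.mono
    fun s' t2 ⟨⟨i2, n2, u2⟩, t2l⟩ => ⟨apps N l, n2 ++ n1, i2, (u1.trans u2).mono ?_, by omega,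
      hA.apps nd' (fun i k => ?_) ?_ fun v hv => ?_, ⟨fun p hp k => ?_, fun v hv k => ?_,
        fun v hv k => ?_⟩, ?_⟩
  · simp only [hl, List.forall_mem_cons, Op.Ok, List.not_mem_nil, false_imp_iff, implies_true,
      and_true, m1, m2, m3, m4, m5, m6, Option.some.injEq, forall_eq', reduceCtorEq, true_and]
    exact ⟨⟨v3, h.dom g3⟩, ⟨v4, h.dom g4⟩, ⟨v5, h.dom g5⟩, v6, g6⟩
  · have : _ ≤ 0 := Nat.add_le_add (Nat.add_le_add z3 z4) (Nat.add_le_add z5 z6)
    simp only [ll, List.length_cons, List.length_nil]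
    push_cast
    have k : ∀ y : ℕ, y ≤ 0 → (y : ℝ) = 0 := fun y q => by exact_mod_cast Nat.le_zero.1 q
    rw [k _ z3, k _ z4, k _ z5, k _ z6]; linarith
  · rw [lm] at k
    exact H.off (by omega) (by omega) (by omega) (by omega) (by omega)
  · have q1 : ¬has X.G d' (5 * r + 1) := fun z => by
      have := (has1.1 z).2
      rw [H.st', rs] at this
      exact H.mS_ne rm (this.resolve_left (by omega))
    have q2 : ¬has X.G d' (5 * rv e) := fun z => by
      have := (has0.1 z).2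
      rw [H.pr', if_neg ee, if_pos rfl] at this; cases this
    simp [hl, q1, q2, n3, n4, n5, n6, arcOf0, arcOf1, b6]
  · simp only [hl, List.map_cons, List.map_nil, List.sum_cons, List.sum_nil, nw_none, nw_some,
      old_mem _ m1, old_mem _ m2, old_mem _ m3, old_notMem _ m4, old_notMem _ m5, old_mem _ m6,
      a1, a2, a3, a6, b3, b4, b5, ct, capA, snkA]
    split_ifs <;> omega
  · rw [H.pr'] at k
    by_cases q : p = rv e'
    · rw [q, ((apps_mem nd' (o := (5 * rv e', false, some (aP X.C X.G d' (rv e'),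
        X.C.B - X.C.lam - N.X (5 * a + 1)))) (by simp [hl])).2 _ rfl).2]
      omega
    · have q' : p ≠ rv e := fun z => by rw [if_neg q, if_pos z] at k; cases k
      rw [if_neg q, if_neg q'] at k
      rw [(apps_ne (by rw [lm]; omega)).2.2]
      exact hR.pl p hp k
  · rw [H.st'] at k
    by_cases q : v = a
    · rw [q, ((apps_mem nd' (o := (5 * a + 1, true, some (aE X.C d' a,
        X.C.B - X.C.lam - N.X (5 * rv e)))) (by simp [hl])).2 _ rfl).2]
      omega
    · have q1 : v ≠ r := fun z => by rw [z] at k; omega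
      have q2 : v ≠ b := fun z => by have := h0.sb; rw [z] at k; omega
      rw [(apps_ne (by rw [lm]; omega)).2.2]
      exact hR.inn v hv k
  · by_cases q : v = b
    · rw [q, ((apps_mem nd' (o := (5 * b + 1, false, some (aE X.C d' b,
        X.C.B - X.C.lam))) (by simp [hl])).2 _ rfl).2]
      omega
    · obtain ⟨q1, q2⟩ := (H.exp_iff.1 k).resolve_left q
      have q3 : v ≠ a := fun z => ab (by rw [← H.mb, ← z, q2])
      rw [(apps_ne (by rw [lm]; omega)).2.2]
      exact hR.rt v hv q2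
  · have p1 := Inv.bar_nonneg h hI m1; have p2 := Inv.bar_nonneg h hI m2
    have p3 := Inv.bar_nonneg h hI m3
    have p4 := h.bar_new v3 g3 rfl; have p5 := h.bar_new v4 g4 rfl; have p6 := h.bar_new v5 g5 rfl
    have p7 := Lb.bar_raise h.D_pos h.s0_pos v6 rfl (x := N.X (5 * c + 2))
      (c := X.C.B - X.C.lam - N.X (5 * r + 1)) (by simp only [snkA]; omega) (by omega)
      (by simp only [snkA]; omega) (u := 1) (by
        have : X.C.B - X.C.lam - N.X (5 * r + 1) ≤ (X.C.M : ℤ) -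
          (N.X (5 * c + 2) + (X.C.B - X.C.lam - N.X (5 * r + 1))) := by omega
        rw [one_mul]; simp only [snkA]; exact_mod_cast this)
    simp only [aE, aP, capA, snkA, Nat.cast_one, Nat.cast_zero] at p4 p5 p6 p7
    rw [pot_apps nd']
    simp only [hl, List.map_cons, List.map_nil, List.sum_cons, List.sum_nil, nw_none, nw_some,
      old_mem _ m1, old_mem _ m2, old_mem _ m3, old_notMem _ m4, old_notMem _ m5, old_mem _ m6, a6,
      aE, aP, capA, snkA]
    linarith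

theorem sCost_le (h : X.Ok) {S : Finset ℕ} (hS : S ⊆ range X.G.n) :
    sCost S X.G.av ≤ (2 * X.C.K + 45) * (#S + 1) := by
  have a : ∑ v ∈ S, (X.G.av.get v).length ≤ #S * 3 := by
    simpa using sum_le_card_nsmul S _ 3 fun v _ => h.wf.av_deg v
  have b : #S ≤ X.G.n := by simpa using card_le_card hS
  have k : Nat.log 2 #S ≤ X.C.K := by
    rcases Nat.eq_zero_or_pos #S with z | z
    · rw [z]; simp
    · exact (Nat.log_lt_of_lt_pow z.ne' (by have := h.K; omega)).le
  have := Nat.mul_le_mul_left #S (by omega : 2 * Nat.log 2 #S + 15 ≤ 2 * X.C.K + 15)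
  unfold sCost
  nlinarith

/-- **ROT** -/
theorem rotSpec (h : X.Ok) : X.RotSpec (rot X.toEnv) := by
  rintro ⟨s, d⟩ N c e r hI hF hR hc ⟨a, k1, k2, k3, k4⟩ hr
  have cm : Cmb X.G d := hI.cmb
  have wf := h.wf
  simp only [bgOf] at k1 k2 k3 k4 hr
  obtain ⟨bm, bo⟩ := cm.bs c hc
  obtain ⟨bl, -, bc⟩ := (cm.mem c hc _).1 bm
  split_ifs at k1 hr with q1 q2
  obtain rfl : d.mt.get (d.bs.get c) = a := Option.some.inj k1
  have sa := bo.resolve_left q1
  have al := cm.mt_lt bl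
  have mb := cm.mt_mt bl
  obtain ⟨el, tle⟩ := (wf.mem _ al e).1 k2
  have pr : d.pr.get (rv e) = true := by
    rcases Bool.or_eq_true_iff.1 k3 with z | z
    · exact z
    · rw [decide_eq_true_eq, mb] at z
      rw [z, bc] at k4
      exact absurd (k4 ▸ q2) q1
  obtain ⟨p, pl, p1, p2⟩ := cm.isM.adj (mem_range.2 al) (by rw [mb]; exact fun z => q1 z.symm)
  have sub : ∀ {y}, isC X.G d y → (d.mem.get y).toFinset ⊆ range X.G.n := fun hy v k =>
    mem_range.2 ((cm.mem _ hy v).1 (List.mem_toFinset.1 k)).1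
  simp only [rot, sp_bind, sp_pure]
  refine (sp_foldL' (fun l u => (∀ y ∈ l, y ∈ X.G.adj.get (X.G.tl.get e)) ∧ (p ∈ l ∨ u = p))
    (fun _ => 0) (fun y l u k => sp_pure.2 ⟨⟨fun z j => k.1 z (List.mem_cons_of_mem _ j), ?_⟩, le_rfl⟩)
    ⟨fun _ k => k, .inl (by rw [tle]; exact (wf.mem _ al p).2 ⟨pl, p1⟩)⟩).mono
    fun e' t1 ⟨⟨_, k⟩, t1l⟩ => ?_
  · have := k.1 y List.mem_cons_self
    rw [tle] at this ⊢
    obtain ⟨y1, y2⟩ := (wf.mem _ al y).1 this
    split_ifs with z
    · exact .inr (wf.simple y y1 p pl (y2.trans p1.symm) (z.trans p2.symm))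
    · exact k.2.imp_left fun j => (List.mem_cons.1 j).resolve_left fun i => z (by rw [← i]; exact p2)
  obtain rfl : e' = p := k.resolve_left List.not_mem_nil
  have H0 : RH0 X.G d _ (X.G.hd e) (d.bs.get c) r e e' :=
    ⟨wf, cm, el, pl, tle, rfl, p1, p2.trans mb, mb, k4, sa, pr, q2⟩
  have sc := sCost_le h (sub H0.isc)
  have cd : #(d.mem.get r).toFinset = d.cw.get r := by
    rw [List.toFinset_card_of_nodup (cm.nodup r H0.isc), cm.cw r H0.isc]
  have cw := cm.cw_le H0.isc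
  have K5 : 2 * X.C.K + 45 ≤ 10 * (X.C.K + 5) ^ 2 := by nlinarith
  rw [cd] at sc
  rw [k4]
  refine (sp_rebase wf.symm wf.av (sub H0.isc) (cm.nodup r H0.isc)
    (fun v => List.mem_toFinset.symm) (cm.fc r H0.isc _ (List.mem_toFinset.2 H0.xm)) H0.isP
    (by rw [q2]; exact notMem_erase _ _) (by have := h.n_le_M; have := h.M_le_X; omega)
    (sc.trans (le_trans (Nat.mul_le_mul (K5.trans (Nat.mul_le_mul_right _ (by norm_num)))
      (Nat.succ_le_succ cw.2)) h.fu))).mono fun m1 t2 ⟨j1, j2, t2l⟩ => ?_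
  have H := H0.rh j1 j2
  have ph := phi_le_Pt (X := X) (s := s)
  refine (sp_rotF h H hI.il.1 hI.arcs hR (by unfold RoomN at hF; push_cast at hF; linarith)).mono
    fun s' t3 ⟨N', n, i, u, t3l, A, R', pt⟩ =>
      ⟨N', ⟨hI.il.up i u, A, H.cmb, H.qok hI.q⟩, R', bc ▸ H.rotD, ?_, ?_⟩
  · have := Pt_up u
    have : (12 : ℝ) ≤ t3 := by exact_mod_cast t3l
    linarith
  · have e1 : X.Ψ (rotD X.G d m1 e e') = X.Ψ d := by
      have a : X.offs (rotD X.G d m1 e e') = X.offs d := rfl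
      have b : ∀ i, X.nS (rotD X.G d m1 e e') i = X.nS d i := fun _ => rfl
      have c : X.Th (rotD X.G d m1 e e') = X.Th d := rfl
      have q : (rotD X.G d m1 e e').Q = d.Q := rfl
      simp only [Ψ, a, b, c, q, H.ex_eq]
    have e2 := Pt_up u
    have e3 : t1 ≤ 4 := by
      have := wf.deg (X.G.tl.get e)
      simp only [zero_add, List.map_const', List.sum_replicate, smul_eq_mul, mul_one] at t1l
      omega
    have e4 : t2 ≤ X.κ * (d.cw.get r + 1) := by
      have := h.κ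
      have z : (X.C.K + 5) ^ 2 ≤ (X.k.AU + X.k.AQ + X.k.cl + 1) * (X.C.K + 5) ^ 2 :=
        Nat.le_mul_of_pos_left _ (by omega)
      rw [mul_assoc] at this
      exact t2l.trans ((Nat.mul_le_mul_left 3 sc).trans (by
        rw [← mul_assoc]; exact Nat.mul_le_mul_right _ (by omega)))
    have e5 := h.AU_le; have e6 := h.Lg_le; have e7 := h.Lg_nonneg
    have e8 : (20000 : ℝ) ≤ X.C.Z := by exact_mod_cast h.Z_pos
    have e9 : (1 : ℝ) ≤ d.cw.get r := by exact_mod_cast cw.1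
    have f3 : (t1 : ℝ) ≤ 4 := by exact_mod_cast e3
    have f4 : (t2 : ℝ) ≤ X.κ * (d.cw.get r + 1) := by exact_mod_cast e4
    have f5 : (0 : ℝ) ≤ X.k.AU := by positivity
    have f6 : (1 : ℝ) + (d.cw.get r + 1) + (6 * X.Lg + 1) ≤ X.C.Z * (d.cw.get r + 1) := by nlinarith
    have f7 := mul_le_mul_of_nonneg_left f6 (Nat.cast_nonneg (α := ℝ) X.κ)
    have f8 := mul_le_mul_of_nonneg_left pt (Nat.cast_nonneg (α := ℝ) X.κ)
    simp only [Tot, wtC, e1]
    push_cast
    linarith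

end Cx

end Crest.Agent.N325.P2
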